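import Crest.Agent.X262.Vb.Res
import Crest.Agent.X262.Vb10.Gw
import Crest.Agent.X262.Vb37.Univ
import Crest.Agent.X262.Val40.Pb

/-!
# Row 262, road B (helper90), part 8: the formal axioms `Ax0`
-/

set_option autoImplicit false
set_option linter.unusedSectionVars false

noncomputable section

namespace Crest.Agent.X262.Vb

open Crest.Agent.X277 Crest.Agent.X277.BD Crest.Agent.X277.Pst Crest.Agent.X277.BD.Cyc
open Crest.Agent.X262.Geo (od od_eq_zero essFT_Rf)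
open Crest.Agent.X262.Hb

variable {J : Type} [Fintype J] [DecidableEq J] {io : J → Type} [∀ j, Fintype (io j)]
  [∀ j, DecidableEq (io j)] {A : Type} [Fintype A]

theorem exNrm : ExNrm := by
  intro J _ _ io _ _ d M K _ _ _ _ ξ N
  obtain ⟨L, _, _, _, _, _, n, η, h1, h2⟩ := Bub96.exists_nrm ξ N
  have h : 0 < deg (IsScalarTower.toAlgHom ℂ K L) := by
    rw [deg_tower]
    exact Module.finrank_pos
  exact ⟨L, _, _, Vb10.eft_of_deg _ h, _, n, η, h, h1, h2⟩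

theorem mobAll (d : J → ℕ) : Vb10.Mob io d where
  trans := Vb37.eqv_trans
  symm := Vb37.eqv_symm
  map := Vb37.eqv_map
  cfg := Vb37.eqv_cfg
  nrm h hn := Vb37.eqv_nrmUp h hn
  cfg_map ξ α := Vb37.cfg_map α ξ
  nz := Dat.cfg_nz
  uniq := Vb37.univ_unique

variable {B : Th} {T : Tgt io A} {c : ℕ} {d : J → ℕ}

theorem Good.inv (hG : Good T c d) (hB : B.Ax) : ∃ N, ∀ {M : Type} (Φ : MFam B io M),
    MCls B T Φ → Vb10.Inv d B T N Φ := by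
  obtain ⟨N, h⟩ := hG.res hB
  exact ⟨N, fun Φ hΦ => ⟨fun _ _ _ hz hc => vir_gau hB hΦ hz hc,
    fun ξ g m hξ => (h ξ g hξ).2.2 m Φ,
    fun θ z m hz => Val40.pbStmt B hB T θ z m Φ hz hΦ⟩⟩

/-- **every norming datum over the universal one computes the invariant** (`N` is uniform) -/
theorem Good.vir_eq (hG : Good T c d) (hB : B.Ax) : ∃ N, ∀ {M K K₀ I : Type} [Fintype M] [Field K]
    [Algebra ℂ K] [Algebra.EssFiniteType ℂ K] [Field K₀] [Algebra ℂ K₀] [Fintype I]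
    (Φ : MFam B io M), MCls B T Φ → ∀ {ξ : Dat io d I K} {m : M → I} {θ : K₀ →ₐ[ℂ] K},
    Over ξ m θ → ξ.NrmUp N → vir B T ξ.cfg m Φ = deg θ * GW B T d Φ := by
  obtain ⟨N, h⟩ := hG.inv hB
  refine ⟨N, fun Φ hΦ _ _ _ ho hN => ?_⟩
  obtain ⟨ξ₀, h0, -⟩ := id ho
  have := Vb37.univ_essFT h0
  exact Vb10.vir_eq_GW exNrm (mobAll d) (h Φ hΦ) ho hN

theorem Good.isGW (hG : Good T c d) (hB : B.Ax) {M : Type} [Fintype M] {Φ : MFam B io M}
    (hΦ : MCls B T Φ) : IsGW B T d Φ (GW B T d Φ) := by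
  obtain ⟨N, h⟩ := hG.inv hB
  exact Vb10.isGW_GW exNrm (mobAll d) (h Φ hΦ)

variable (io d) in
/-- a universal datum exists -/
def HasUniv (M : Type) [Fintype M] : Prop :=
  ∃ (K : Type) (_ : Field K) (_ : Algebra ℂ K) (ξ : Dat io d M K), ξ.Univ

variable {M : Type} [Fintype M] {Φ Ψ : MFam B io M}

theorem GW_of_not (h : ¬ HasUniv io d M) (Φ : MFam B io M) : GW B T d Φ = 0 := by
  have h1 : ∀ v, IsGW B T d Φ v := fun v =>
    ⟨0, fun _ K₀ _ _ _ _ _ _ _ _ _ _ _ ⟨ξ₀, h0, _⟩ _ => (h ⟨K₀, _, _, ξ₀, h0⟩).elim⟩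
  exact dif_neg fun h2 => zero_ne_one (h2.unique (h1 0) (h1 1))

theorem GW_eq (h : HasUniv io d M) {v : ℂ} (hv : IsGW B T d Φ v) : GW B T d Φ = v := by
  obtain ⟨K, _, _, ξ, h⟩ := h
  have := Vb37.univ_essFT h
  have hu : ∃! v, IsGW B T d Φ v := ⟨v, hv, fun w hw => Vb10.isGW_unique exNrm (mobAll d) h hw hv⟩
  rw [GW, dif_pos hu]
  exact hu.unique hu.choose_spec.1 hv

theorem GW_eq' {v : ℂ} (hv : IsGW B T d Φ v) (h0 : ¬ HasUniv io d M → v = 0) :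
    GW B T d Φ = v := by
  by_cases h : HasUniv io d M
  · exact GW_eq h hv
  · rw [GW_of_not h, h0 h]

/-- a norming datum over the universal one exists, of positive degree -/
theorem HasUniv.exists (h : HasUniv io d M) (N : ℕ) : ∃ (K K₀ : Type) (_ : Field K)
    (_ : Algebra ℂ K) (_ : Algebra.EssFiniteType ℂ K) (_ : Field K₀) (_ : Algebra ℂ K₀)
    (_ : Algebra.EssFiniteType ℂ K₀) (θ : K₀ →ₐ[ℂ] K) (n : ℕ) (ξ₀ : Dat io d M K₀)
    (ξ : Dat io d (M ⊕ Fin n) K), 0 < deg θ ∧ ξ₀.Univ ∧ ξ.res Sum.inl = ξ₀.map θ ∧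
      Over ξ Sum.inl θ ∧ ξ.NrmUp N := by
  obtain ⟨K₀, _, _, ξ₀, h⟩ := h
  have := Vb37.univ_essFT h
  obtain ⟨K, _, _, _, θ, n, ξ, h1, h2, h3⟩ := exNrm ξ₀ N
  exact ⟨K, K₀, _, _, ‹_›, _, _, ‹_›, θ, n, ξ₀, ξ, h1, h, h2, Vb10.over_inl h h2 (mobAll d), h3⟩

/-- comparison of invariants through the virtual numbers (two targets in the same space) -/
theorem GW_congr {A' : Type} [Fintype A'] {T' : Tgt io A'} (h : ∃ N, ∀ (K K₀ I : Type) [Field K]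
    [Algebra ℂ K] [Algebra.EssFiniteType ℂ K] [Field K₀] [Algebra ℂ K₀]
    [Algebra.EssFiniteType ℂ K₀] [Fintype I] (ξ : Dat io d I K) (m : M → I) (θ : K₀ →ₐ[ℂ] K),
    Over ξ m θ → ξ.NrmUp N → vir B T ξ.cfg m Φ = vir B T' ξ.cfg m Ψ) :
    GW B T d Φ = GW B T' d Ψ := by
  obtain ⟨N, h⟩ := h
  have h1 : IsGW B T d Φ = IsGW B T' d Ψ := by
    funext v
    refine propext ⟨fun ⟨N', h'⟩ => ⟨max N N', fun K K₀ I _ _ _ _ _ _ _ ξ m θ ho hN => ?_⟩,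
      fun ⟨N', h'⟩ => ⟨max N N', fun K K₀ I _ _ _ _ _ _ _ ξ m θ ho hN => ?_⟩⟩
    · rw [← h K K₀ I ξ m θ ho (Vb10.nrmUp_mono hN (le_max_left _ _))]
      exact h' K K₀ I ξ m θ ho (Vb10.nrmUp_mono hN (le_max_right _ _))
    · rw [h K K₀ I ξ m θ ho (Vb10.nrmUp_mono hN (le_max_left _ _))]
      exact h' K K₀ I ξ m θ ho (Vb10.nrmUp_mono hN (le_max_right _ _))
  unfold GW
  rw [h1]

theorem isGW_perm {M' : Type} [Fintype M'] (e : M ≃ M') {v : ℂ} (h : IsGW B T d Φ v) :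
    IsGW B T d (M := M') (fun E _ _ y => Φ E fun q => y (e q)) v := by
  obtain ⟨N, h⟩ := h
  exact ⟨N, fun K K₀ I _ _ _ _ _ _ _ ξ m θ ⟨ξ₀, h0, h1⟩ hN => h K K₀ I ξ (fun q => m (e q)) θ
    ⟨ξ₀.res e, Vb37.univ_res_equiv h0 e, Vb37.eqv_res h1 e⟩ hN⟩

theorem GW_perm {M' : Type} [Fintype M'] (e : M ≃ M') (Φ : MFam B io M) :
    GW B T d (M := M') (fun E _ _ y => Φ E fun q => y (e q)) = GW B T d Φ := by
  have h1 : IsGW B T d (M := M') (fun E _ _ y => Φ E fun q => y (e q)) = IsGW B T d Φ := by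
    funext v
    refine propext ⟨fun h => ?_, isGW_perm e⟩
    simpa only [Equiv.symm_apply_apply] using isGW_perm e.symm h
  unfold GW
  rw [h1]

/-- the marked points of a reduction inside the target lie on a tree -/
theorem treePts_red {I K E : Type} [Fintype I] [Field K] [Algebra ℂ K] [Field E] [Algebra ℂ E]
    {N : ℕ} (hk : ∀ a j, T.k a j ≤ N) {ξ : Dat io d I K} (h : ξ.NrmUp N) (p : Pl ℂ K ℂ E)
    (hO : (ξ.cfg.red p).On T) {M : Type} (m : M → I) :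
    TreePts T d fun q => (ξ.cfg.red p).y (m q) := by
  obtain ⟨k, _, _, _, ⟨D⟩⟩ := Bub96.tl_red h p
  refine ⟨k, _, _, ‹_›, D.α, D.t, fun q => D.sp (m q), fun q j => (D.c (m q) j)⁻¹, D.ok, D.deg,
    D.on hk hO, fun q j => inv_ne_zero (D.c_ne _ _), fun q j i => ?_⟩
  rw [D.ev_sp, inv_mul_cancel_left₀ (D.c_ne _ _)]

theorem ax0 (hB : B.Ax) (hG : Good T c d) : Ax0 B T d where
  gw _ hΦ := hG.isGW hB hΦ
  add Φ Ψ hΦ hΨ := by
    obtain ⟨N, h⟩ := hG.vir_eq hB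
    refine GW_eq' ⟨N, fun K K₀ I _ _ _ _ _ _ _ ξ m θ ho hN => ?_⟩ fun h0 => by
      rw [GW_of_not h0, GW_of_not h0, add_zero]
    rw [vir_add hB hΦ hΨ ξ.cfg_nz, h Φ hΦ ho hN, h Ψ hΨ ho hN, mul_add]
  smul a Φ hΦ := by
    obtain ⟨N, h⟩ := hG.vir_eq hB
    refine GW_eq' ⟨N, fun K K₀ I _ _ _ _ _ _ _ ξ m θ ho hN => ?_⟩ fun h0 => by
      rw [GW_of_not h0, mul_zero]
    rw [vir_smul, h Φ hΦ ho hN, mul_left_comm]
  perm e Φ := GW_perm e Φ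
  supp Φ Ψ _ _ h := by
    obtain ⟨N, hN⟩ := exists_bd T
    refine GW_congr ⟨N, fun K K₀ I _ _ _ _ _ _ _ ξ m θ _ hξ => vir_congr rfl fun W hW h1 => ?_⟩
    have := essFT_Rf hW
    rw [trm, trm, h _ _ (treePts_red hN hξ _ (on_at ξ.cfg_nz h1) m)]
  typ Φ p q _ h hpq := GW_eq' ⟨0, fun K K₀ I _ _ _ _ _ _ _ ξ m θ _ _ => by
    rw [vir_typ hB ξ.cfg_nz h hpq, mul_zero]⟩ fun _ => rfl

theorem ax0Stmt : Ax0Stmt := fun _ hB _ _ _ _ _ _ _ _ _ _ _ hG => ax0 hB hG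

theorem GW_zero : GW B T d (0 : MFam B io M) = 0 :=
  GW_eq' ⟨0, fun K K₀ I _ _ _ _ _ _ _ ξ m θ _ _ => by rw [vir_zero, mul_zero]⟩ fun _ => rfl

theorem GW_sum (hB : B.Ax) (hG : Good T c d) {ι : Type*} (s : Finset ι) {Φ : ι → MFam B io M}
    (h : ∀ i ∈ s, MCls B T (Φ i)) : GW B T d (∑ i ∈ s, Φ i) = ∑ i ∈ s, GW B T d (Φ i) := by
  classical
  induction s using Finset.induction_on with
  | empty => simpa using GW_zero
  | insert i s hi ih =>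
    have h1 : ∀ j ∈ s, MCls B T (Φ j) := fun j hj => h j (Finset.mem_insert_of_mem hj)
    rw [Finset.sum_insert hi, Finset.sum_insert hi,
      (ax0 hB hG).add _ _ (h i (Finset.mem_insert_self _ _)) (MCls.sum s h1), ih h1]

end Crest.Agent.X262.Vb
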