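import Crest.Agent.X262.Vb.Ech
import Crest.Agent.X262.Hb.Sat0
import Crest.Agent.X262.Node22.Alg
import Crest.Agent.X262.Tree87.Lin

/-!
# Row 262, road B (helper90), part 3: lines, sizes, points
-/

set_option autoImplicit false
set_option linter.unusedSectionVars false

noncomputable section

namespace Crest.Agent.X262.Vb

open Crest.Agent.X277 Crest.Agent.X277.BD Crest.Agent.X277.BD.Cyc
open Crest.Agent.X262.Hb
open Crest.Agent.X262.Node22 (scl chr vec pv_scl chr_ne mem_Nm_scl)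
open Crest.Agent.X262.Tree87 (r_sum r_prod)

variable {J : Type} [Fintype J] [DecidableEq J] {io : J → Type} [∀ j, Fintype (io j)]
  [∀ j, DecidableEq (io j)] {A : Type} [Fintype A]
variable {P : Type} [Fintype P] {K E L : Type} [Field K] [Algebra ℂ K] [Field E] [Algebra ℂ E]
  [Field L] [Algebra ℂ L]

/-! ### sizes -/

section Sz

variable {u : P → K} {a : P → BD ℂ K} {V : RZ ℂ K}

theorem sz_zero (a : P → BD ℂ K) : sz (0 : P → K) a = 0 := by
  unfold sz
  rw [dif_neg (by simp)]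

theorem val_sz (hu : u ≠ 0) (a : P → BD ℂ K) (V : RZ ℂ K) : (sz u a).val V = nm a V u := by
  classical
  obtain ⟨j, hj⟩ := Function.ne_iff.1 hu
  have hne : (Finset.univ.filter fun x => u x ≠ 0).Nonempty := ⟨j, by simpa using hj⟩
  unfold sz
  rw [dif_pos (by convert hne)]
  refine le_antisymm ?_ ?_
  · refine Finset.sup'_induction (p := fun b : BD ℂ K => b.val V ≤ nm a V u) _ _
      (fun b hb c hc => by rw [val_sup]; exact max_le hb hc) fun i hi => ?_
    rw [val_sub, val_pr (by simpa using hi)]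
    exact div_le_nm a V u i
  · obtain ⟨i, hi, h⟩ := exists_nm a V hu
    have := (Finset.le_sup' (s := Finset.univ.filter fun x => u x ≠ 0)
      (fun x => pr ℂ (u x) - a x) (b := i) (by simpa using hi) : _ ≤ _) V
    rw [val_sub, val_pr hi, h, mul_div_cancel_right₀ _ (val_ne _ _)] at this
    convert this

theorem sz_eq_dst (hu : u ≠ 0) (a : P → BD ℂ K) : sz u a = dst a ⊥ u :=
  ext' fun V => by rw [val_sz hu, val_dst_bot hu]

theorem nm_congr {P' : Type} [Fintype P'] {u' : P' → K} {a' : P' → BD ℂ K}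
    (h : ∀ γ, (∀ i, V.v (u i) ≤ γ * (a i).val V) ↔ ∀ i, V.v (u' i) ≤ γ * (a' i).val V) :
    nm a V u = nm a' V u' :=
  le_antisymm (nm_le.2 ((h _).2 (le_nm a' V u'))) (nm_le.2 ((h _).1 (le_nm a V u)))

theorem nm_scl {c : P → K} (hc : ∀ x, c x ≠ 0) (a : P → BD ℂ K) (V : RZ ℂ K) (u : P → K) :
    nm (fun x => a x + pr ℂ (c x)) V (fun x => c x * u x) = nm a V u :=
  nm_congr fun γ => forall_congr' fun i => by
    rw [map_mul, val_add, val_pr (hc i), mul_comm (V.v (c i)), ← mul_assoc,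
      mul_le_mul_iff_left₀ (RZ.pos (hc i))]

theorem sz_scl {c : P → K} (hc : ∀ x, c x ≠ 0) (a : P → BD ℂ K) (u : P → K) :
    sz (fun x => c x * u x) (fun x => a x + pr ℂ (c x)) = sz u a := by
  by_cases hu : u = 0
  · subst hu
    rw [sz_zero, ← sz_zero fun x => a x + pr ℂ (c x)]
    congr 1
    funext x
    simp
  · have h1 : (fun x => c x * u x) ≠ 0 := fun h =>
      hu (funext fun x => (mul_eq_zero.1 (congrFun h x)).resolve_left (hc x))
    exact ext' fun V => by rw [val_sz h1, val_sz hu, nm_scl hc]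

theorem sz_smul (hu : u ≠ 0) {c : K} (hc : c ≠ 0) (a : P → BD ℂ K) :
    sz (c • u) a = pr ℂ c + sz u a :=
  ext' fun V => by rw [val_sz (smul_ne_zero hc hu), nm_smul, val_add, val_pr hc, val_sz hu]

/-- restriction of the size of a primitive vector -/
theorem res_sz (p : Pl ℂ K ℂ E) (ha : ∀ x, (a x).val p.V = 1) (hu : nm a p.V u = 1) :
    p.res (sz u a) = sz (fun x => p.r (u x)) fun x => p.res (a x) := by
  have h0 : u ≠ 0 := fun h => by simp [h] at hu
  have hi : ∀ x, u x ∈ p.V.1 := fun x => RZ.le_one_iff.1 (by simpa [hu, ha] using le_nm a p.V u x)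
  obtain ⟨x0, -, hx0⟩ := exists_nm a p.V h0
  rw [hu, ha, one_mul] at hx0
  have h1 : (fun x => p.r (u x)) ≠ 0 := fun h => Pl.r_ne_zero_iff.2 hx0 (congrFun h x0)
  have hs : (sz u a).val p.V = 1 := by rw [val_sz h0, hu]
  refine ext' fun W => ?_
  rw [val_sz h1]
  have hg := v_gen (sz u a) (p.cm W)
  have hgu := Pl.unit_of_gen hs hg
  have key : ∀ x, (W.v (p.r (u x)) ≤ (p.res (sz u a)).val W * (p.res (a x)).val W) ∧
      ((p.cm W).v (u x) = (sz u a).val (p.cm W) * (a x).val (p.cm W) →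
        W.v (p.r (u x)) = (p.res (sz u a)).val W * (p.res (a x)).val W) := fun x => by
    have hx := v_gen (a x) (p.cm W)
    have hxu := Pl.unit_of_gen (ha x) hx
    have hm : p.V.v ((sz u a).gen (p.cm W) * (a x).gen (p.cm W)) = 1 := by
      rw [map_mul, hgu, hxu, one_mul]
    rw [Pl.val_res hs hg, Pl.val_res (ha x) hx, ← map_mul,
      ← Pl.r_mul (RZ.le_one_iff.1 hgu.le) (RZ.le_one_iff.1 hxu.le), ← Pl.v_le_iff (hi x) hm,
      map_mul, hg, hx]
    refine ⟨by rw [val_sz h0]; exact le_nm a _ u x, fun h => ?_⟩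
    have h2 : (p.cm W).v (u x) = (p.cm W).v ((sz u a).gen (p.cm W) * (a x).gen (p.cm W)) := by
      rw [map_mul, hg, hx, h]
    exact (Pl.v_eq_iff ((RZ.eq_of_le (Pl.cm_le W) h2).trans hm) hm).1 h2
  refine le_antisymm ?_ (nm_le.2 fun x => (key x).1)
  obtain ⟨x, -, hx⟩ := exists_nm a (p.cm W) h0
  have h3 := le_nm (fun x => p.res (a x)) W (fun x => p.r (u x)) x
  rw [(key x).2 (by rw [hx, val_sz h0])] at h3
  exact le_of_mul_le_mul_right h3 (val_pos _ _)

theorem res_hom (α : K →ₐ[ℂ] E) (a : BD ℂ K) : (LP.hom α).res a = pb α a := rfl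

theorem val_hom (α : K →ₐ[ℂ] E) (a : BD ℂ K) : a.val (LP.hom α).V = 1 := val_top a

theorem v_hom (α : K →ₐ[ℂ] E) {x : K} (hx : x ≠ 0) : (LP.hom α).V.v x = 1 := RZ.v_top hx

theorem pb_sz (α : K →ₐ[ℂ] E) (u : P → K) (a : P → BD ℂ K) :
    pb α (sz u a) = sz (fun x => α (u x)) fun x => pb α (a x) := by
  by_cases hu : u = 0
  · subst hu
    rw [sz_zero, map_zero, ← sz_zero fun x => pb α (a x)]
    congr 1
    funext x
    simp
  · have := res_sz (LP.hom α).toPl (fun x => val_hom α (a x))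
      ((val_sz hu a _).symm.trans (val_hom α _))
    simpa only [r_hom, res_hom] using this

end Sz

/-! ### lines -/

section Ln

variable {y : Pnt io K} {V : RZ ℂ K} {κ κ' : J → ℕ}

theorem le_ln (y : Pnt io K) (j : J) (i : io j) (V : RZ ℂ K) : V.v (y j i) ≤ (ln y j).val V :=
  mem_Sec_mxf (y j) i V

theorem exists_ln (h : NZ y) (j : J) (V : RZ ℂ K) : ∃ i, V.v (y j i) = (ln y j).val V :=
  exists_val_mxf (h j) V

theorem free_ln (y : Pnt io K) (j : J) : Free (ln y j) := free_mxf _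

theorem free_lw (κ : J → ℕ) (y : Pnt io K) : Free (lw κ y) :=
  Free.sum _ fun j _ => (free_ln y j).nsmul _

theorem Prim.nz (h : Prim V y) : NZ y := fun j =>
  (h j).2.imp fun _ hi => RZ.ne_zero_iff.1 (hi ▸ one_ne_zero)

theorem Prim.val_ln (h : Prim V y) (j : J) : (ln y j).val V = 1 := by
  obtain ⟨i, hi⟩ := exists_ln h.nz j V
  obtain ⟨i', hi'⟩ := (h j).2
  exact le_antisymm (hi ▸ RZ.le_one_iff.2 ((h j).1 i)) (hi' ▸ le_ln y j i' V)

theorem prim_of_val (h : NZ y) (h1 : ∀ j, (ln y j).val V = 1) : Prim V y := fun j =>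
  ⟨fun i => RZ.le_one_iff.1 (h1 j ▸ le_ln y j i V), h1 j ▸ exists_ln h j V⟩

theorem Prim.mono {W : RZ ℂ K} (h : Prim V y) (hle : V.1 ≤ W.1) : Prim W y := fun j =>
  ⟨fun i => hle ((h j).1 i), (h j).2.imp fun i hi => by
    simpa using RZ.eq_of_le hle (x := y j i) (y := 1) (by simpa using hi)⟩

theorem val_lw (κ : J → ℕ) (y : Pnt io K) (V : RZ ℂ K) :
    (lw κ y).val V = ∏ j, (ln y j).val V ^ κ j := by
  simp only [lw, val_sum, val_nsmul]

theorem Prim.val_lw (h : Prim V y) (κ : J → ℕ) : (lw κ y).val V = 1 := by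
  simp [Vb.val_lw, h.val_ln]

theorem lw_add (κ κ' : J → ℕ) (y : Pnt io K) : lw (κ + κ') y = lw κ y + lw κ' y := by
  simp only [lw, Pi.add_apply, add_nsmul, Finset.sum_add_distrib]

theorem lw_zero (y : Pnt io K) : lw 0 y = 0 := by simp [lw]

theorem lw_single (j : J) (y : Pnt io K) : lw (Pi.single j 1) y = ln y j := by
  rw [lw, Finset.sum_eq_single j (fun j' _ h => by simp [h]) (by simp)]
  simp

theorem ln_scl (h : NZ y) {c : J → K} (hc : ∀ j, c j ≠ 0) (j : J) :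
    ln (scl c y) j = ln y j + pr ℂ (c j) := by
  refine (eq_mxf (fun i V => ?_) fun V => ?_).symm
  · rw [val_add, val_pr (hc j), scl, map_mul, mul_comm]
    exact mul_le_mul_left (le_ln y j i V) _
  · obtain ⟨i, hi⟩ := exists_ln h j V
    exact ⟨i, by rw [val_add, val_pr (hc j), scl, map_mul, mul_comm, hi]⟩

theorem pr_chr {c : J → K} (hc : ∀ j, c j ≠ 0) (κ : J → ℕ) :
    pr ℂ (chr c κ) = ∑ j, κ j • pr ℂ (c j) := by
  rw [chr, pr_prod _ fun j _ => pow_ne_zero _ (hc j)]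
  exact Finset.sum_congr rfl fun j _ => pr_pow (hc j) _

theorem lw_scl (h : NZ y) {c : J → K} (hc : ∀ j, c j ≠ 0) (κ : J → ℕ) :
    lw κ (scl c y) = lw κ y + pr ℂ (chr c κ) := by
  simp only [lw, ln_scl h hc, pr_chr hc, nsmul_add, Finset.sum_add_distrib]

theorem prim_scl (h : NZ y) {c : J → K} (hc : ∀ j, V.v (c j) = ((ln y j).val V)⁻¹) :
    Prim V (scl c y) := by
  have h0 : ∀ j, c j ≠ 0 := fun j => RZ.ne_zero_iff.1 (hc j ▸ inv_ne_zero (val_ne _ _))
  exact prim_of_val (Node22.nz_scl h h0) fun j => by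
    rw [ln_scl h h0, val_add, val_pr (h0 j), hc, mul_inv_cancel₀ (val_ne _ _)]

theorem Prim.v_eq {c : J → K} (h : NZ y) (hc : ∀ j, c j ≠ 0) (hp : Prim V (scl c y)) (j : J) :
    V.v (c j) = ((ln y j).val V)⁻¹ := by
  have := hp.val_ln j
  rw [ln_scl h hc, val_add, val_pr (hc j)] at this
  exact eq_inv_of_mul_eq_one_right this

theorem Prim.nz_red {p : Pl ℂ K ℂ E} (h : Prim p.V y) : NZ (redP p y) := fun j =>
  (h j).2.imp fun _ hi => Pl.r_ne_zero_iff.2 hi

theorem ln_red {p : Pl ℂ K ℂ E} (h : Prim p.V y) (j : J) : ln (redP p y) j = p.res (ln y j) := by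
  refine (eq_mxf (fun i => Pl.r_mem_Sec (h.val_ln j) (mem_Sec_mxf _ i)) fun W => ?_).symm
  obtain ⟨i, hi⟩ := exists_ln h.nz j (p.cm W)
  exact ⟨i, (Pl.val_res (h.val_ln j) hi).symm⟩

theorem res_sum {p : Pl ℂ K ℂ E} {ι : Type} (s : Finset ι) {a : ι → BD ℂ K}
    (h : ∀ i ∈ s, (a i).val p.V = 1) : p.res (∑ i ∈ s, a i) = ∑ i ∈ s, p.res (a i) := by
  classical
  induction s using Finset.induction_on with
  | empty => simp
  | insert i s hi ih =>
    have h1 := fun j hj => h j (Finset.mem_insert_of_mem hj)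
    rw [Finset.sum_insert hi, Finset.sum_insert hi, Pl.res_add (h i (Finset.mem_insert_self _ _))
      (by rw [val_sum]; exact Finset.prod_eq_one h1), ih h1]

theorem lw_red {p : Pl ℂ K ℂ E} (h : Prim p.V y) (κ : J → ℕ) :
    lw κ (redP p y) = p.res (lw κ y) := by
  rw [lw, lw, res_sum _ fun j _ => by rw [val_nsmul, h.val_ln, one_pow]]
  exact Finset.sum_congr rfl fun j _ => by rw [Pl.res_nsmul (h.val_ln j), ln_red h]

/-- the image of a point under a field embedding -/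
def mapP (α : K →ₐ[ℂ] E) (y : Pnt io K) : Pnt io E := fun j i => α (y j i)

theorem redP_hom (α : K →ₐ[ℂ] E) (y : Pnt io K) : redP (LP.hom α).toPl y = mapP α y :=
  funext fun j => funext fun i => r_hom α (y j i)

theorem prim_hom (α : K →ₐ[ℂ] E) (h : NZ y) : Prim (LP.hom α).V y :=
  prim_of_val h fun _ => val_hom α _

theorem nz_map (α : K →ₐ[ℂ] E) : NZ (mapP α y) ↔ NZ y :=
  forall_congr' fun _ => exists_congr fun _ => map_ne_zero α

theorem ln_map (α : K →ₐ[ℂ] E) (y : Pnt io K) (j : J) : ln (mapP α y) j = pb α (ln y j) :=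
  (pb_mxf α (y j)).symm

theorem lw_map (α : K →ₐ[ℂ] E) (y : Pnt io K) (κ : J → ℕ) : lw κ (mapP α y) = pb α (lw κ y) := by
  simp only [lw, ln_map, map_sum, map_nsmul]

theorem prim_comp {p : LP K E} {q : LP E L} :
    Prim (p.comp q).V y ↔ Prim p.V y ∧ Prim q.V (redP p.toPl y) := by
  have key : ∀ x : K, (p.comp q).V.v x = 1 ↔ p.V.v x = 1 ∧ q.V.v (p.r x) = 1 := fun x => by
    rw [← Pl.r_ne_zero_iff (p := (p.comp q).toPl), ← Pl.r_ne_zero_iff (p := q.toPl)]
    refine ⟨fun h => ?_, fun h => by rw [r_comp p q (RZ.le_one_iff.1 h.1.le)]; exact h.2⟩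
    have h1 := (mem_comp.1 (RZ.le_one_iff.1 (Pl.r_ne_zero_iff.1 h).le)).1
    rw [r_comp p q h1] at h
    exact ⟨Pl.r_ne_zero_iff.1 fun h0 => h (by rw [h0, Pl.r_zero]), h⟩
  refine ⟨fun h => ⟨fun j => ⟨fun i => (mem_comp.1 ((h j).1 i)).1,
    (h j).2.imp fun i hi => ((key _).1 hi).1⟩, fun j => ⟨fun i => (mem_comp.1 ((h j).1 i)).2,
    (h j).2.imp fun i hi => ((key _).1 hi).2⟩⟩, fun h j =>
    ⟨fun i => mem_comp.2 ⟨(h.1 j).1 i, (h.2 j).1 i⟩, (h.2 j).2.imp fun i hi => (key _).2 ⟨?_, hi⟩⟩⟩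
  exact Pl.r_ne_zero_iff.1 (RZ.ne_zero_iff.1 (hi ▸ one_ne_zero))

theorem redP_comp (p : LP K E) (q : LP E L) (h : ∀ j i, y j i ∈ p.V.1) :
    redP (p.comp q).toPl y = redP q.toPl (redP p.toPl y) :=
  funext fun j => funext fun i => r_comp p q (h j i)

theorem redP_scl (p : Pl ℂ K ℂ E) {c : J → K} (hc : ∀ j, c j ∈ p.V.1) (h : ∀ j i, y j i ∈ p.V.1) :
    redP p (scl c y) = scl (fun j => p.r (c j)) (redP p y) :=
  funext fun j => funext fun i => Pl.r_mul (hc j) (h j i)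

/-! ### values of polynomials -/

theorem pv_mem (h : ∀ j i, y j i ∈ V.1) (q : MvPolynomial (Vr io) ℂ) : pv y q ∈ V.1 :=
  (Geo.r_aeval (lnr_plV V) (fun v : Vr io => h v.1 v.2) q).1

theorem r_pv {p : Pl ℂ K ℂ E} (hp : Lnr p) (h : ∀ j i, y j i ∈ p.V.1)
    (q : MvPolynomial (Vr io) ℂ) : p.r (pv y q) = pv (redP p y) q :=
  (Geo.r_aeval hp (fun v : Vr io => h v.1 v.2) q).2

theorem pv_map (α : K →ₐ[ℂ] E) (y : Pnt io K) (q : MvPolynomial (Vr io) ℂ) :
    pv (mapP α y) q = α (pv y q) := by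
  rw [← redP_hom, ← r_pv (LP.hom α).lnr (fun _ _ => mem_hom α _), r_hom]

theorem v_pv_le (h : NZ y) {q : MvPolynomial (Vr io) ℂ} (hq : MH q κ) (V : RZ ℂ K) :
    V.v (pv y q) ≤ (lw κ y).val V := by
  let c : J → K := fun j => ((ln y j).gen V)⁻¹
  have hc : ∀ j, c j ≠ 0 := fun j => inv_ne_zero (gen_ne _ _)
  have hp : Prim V (scl c y) := prim_scl h fun j => by rw [map_inv₀, v_gen]
  have h1 := RZ.le_one_iff.2 (pv_mem (fun j => (hp j).1) q)
  rw [← hp.val_lw κ, pv_scl hq, lw_scl h hc, val_add, val_pr (chr_ne hc κ), map_mul,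
    mul_comm] at h1
  exact le_of_mul_le_mul_right h1 (RZ.pos (chr_ne hc κ))

variable (T : Tgt io A)

theorem on_map (α : K →ₐ[ℂ] E) : T.On (mapP α y) ↔ T.On y :=
  forall_congr' fun a => by rw [pv_map, map_eq_zero]

theorem on_scl_iff {c : J → K} (hc : ∀ j, c j ≠ 0) : T.On (scl c y) ↔ T.On y :=
  forall_congr' fun a => by rw [pv_scl (T.hom a), mul_eq_zero, or_iff_right (chr_ne hc _)]

theorem on_red {p : Pl ℂ K ℂ E} (hp : Lnr p) (h : ∀ j i, y j i ∈ p.V.1) (hO : T.On y) :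
    T.On (redP p y) := fun a => by rw [← r_pv hp h, hO a, Pl.r_zero]

theorem Nm_scl {c : J → K} (hc : ∀ j, c j ≠ 0) (y : Pnt io K) :
    T.Nm (scl c y) = sclS (fun a => chr c (T.k a)) (T.Nm y) := by
  ext n
  rw [mem_sclS' fun a => chr_ne hc _, ← mem_Nm_scl T hc (y := y),
    show (fun a => chr c (T.k a) * ((chr c (T.k a))⁻¹ * n a)) = n from
      funext fun a => mul_inv_cancel_left₀ (chr_ne hc _) _]

theorem Nm_map (α : K →ₐ[ℂ] E) (y : Pnt io K) : T.Nm (mapP α y) = mapS α (T.Nm y) := by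
  unfold Tgt.Nm Tgt.jac
  rw [Matrix.toLin'_apply', Matrix.toLin'_apply', Tree87.mapS_range]
  congr 2
  ext a v
  exact pv_map α y _

theorem Nm_red_le {p : Pl ℂ K ℂ E} (hp : Lnr p) (h : ∀ j i, y j i ∈ p.V.1) :
    T.Nm (redP p y) ≤ redS p (T.Nm y) := by
  unfold Tgt.Nm Tgt.jac
  rw [Matrix.toLin'_apply', Matrix.toLin'_apply']
  refine le_trans (le_of_eq ?_) (Tree87.range_le_redS (p := p) fun a v => pv_mem h _)
  congr 2
  ext a v
  exact (r_pv hp h _).symm

variable {T}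

theorem Syz.reg_map (S : Syz T) (c : ℕ) (α : K →ₐ[ℂ] E) : S.Reg c (mapP α y) ↔ S.Reg c y := by
  let M : Matrix (Fin S.r) A K := Matrix.of fun b a => pv y (S.ρ b a)
  have h1 : ∀ σ : A → K, σ ∈ LinearMap.ker M.mulVecLin ↔ ∀ b, ∑ a, pv y (S.ρ b a) * σ a = 0 :=
    fun σ => funext_iff
  have h2 : ∀ σ : A → E, σ ∈ LinearMap.ker (M.map α).mulVecLin ↔
      ∀ b, ∑ a, pv (mapP α y) (S.ρ b a) * σ a = 0 := fun σ => by
    simp only [pv_map]
    exact funext_iff
  unfold Syz.Reg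
  simp only [← h1, ← h2]
  rw [Nm_map, finrank_mapS, ← Tree87.mapS_ker]
  exact and_congr_right fun _ => Tree87.mapS_le_iff α

theorem Syz.reg_scl (S : Syz T) (c : ℕ) {g : J → K} (hg : ∀ j, g j ≠ 0) (h : S.Reg c y) :
    S.Reg c (scl g y) := by
  refine ⟨by rw [Nm_scl T hg, finrank_sclS fun a => chr_ne hg _, h.1], fun σ hσ => ?_⟩
  rw [Nm_scl T hg, mem_sclS' fun a => chr_ne hg _]
  refine h.2 _ fun b => mul_left_cancel₀ (chr_ne hg (S.e b)) ?_
  rw [mul_zero, ← hσ b, Finset.mul_sum]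
  refine Finset.sum_congr rfl fun a _ => ?_
  rcases S.hom b a with h0 | ⟨κ, h1, h2⟩
  · simp [h0, pv]
  · rw [pv_scl h2, ← h1]
    have h3 : chr g (κ + T.k a) = chr g κ * chr g (T.k a) := by
      simp only [chr, Pi.add_apply, pow_add, Finset.prod_mul_distrib]
    rw [h3]
    field_simp [chr_ne hg (T.k a)]

/-- the syzygies kill the normal space at a point of the target -/
theorem Syz.rho_Nm (S : Syz T) (hO : T.On y) {σ : A → K} (hσ : σ ∈ T.Nm y) (b : Fin S.r) :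
    ∑ a, pv y (S.ρ b a) * σ a = 0 := by
  obtain ⟨w, rfl⟩ := hσ
  have h1 : ∀ v, ∑ a, pv y (S.ρ b a) * pv y (MvPolynomial.pderiv v (T.F a)) = 0 := fun v => by
    have h2 := congrArg (fun q => pv y (MvPolynomial.pderiv v q)) (S.syz b)
    simp only [map_sum, Derivation.leibniz, smul_eq_mul, pv, map_add, map_mul, map_zero] at h2
    refine Eq.trans (Finset.sum_congr rfl fun a _ => ?_) h2
    rw [show MvPolynomial.aeval (fun v : Vr io => y v.1 v.2) (T.F a) = 0 from hO a, zero_mul,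
      add_zero]
    rfl
  simp only [Node22.jac_apply, Finset.mul_sum]
  rw [Finset.sum_comm]
  refine Finset.sum_eq_zero fun v _ => ?_
  simp only [← mul_assoc, ← Finset.sum_mul]
  exact mul_eq_zero_of_left (h1 v) _

theorem Syz.rho_F (S : Syz T) (y : Pnt io K) (b : Fin S.r) :
    ∑ a, pv y (S.ρ b a) * pv y (T.F a) = 0 := by
  have h2 := congrArg (pv y) (S.syz b)
  simpa only [pv, map_sum, map_mul, map_zero] using h2

end Ln

end Crest.Agent.X262.Vb
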