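import Crest.Agent.X262.Vb.Loc
import Crest.Agent.X262.Tree87.Rank

/-!
# Row 262, road B (helper90), part 7: norming subfamilies of points

The divisor, the obstruction space, the excess class and the virtual number do not change when
the points are restricted to a norming subfamily.
-/

set_option autoImplicit false
set_option linter.unusedSectionVars false

noncomputable section

namespace Crest.Agent.X262.Vb

open Crest.Agent.X277 Crest.Agent.X277.BD Crest.Agent.X277.Pst Crest.Agent.X277.BD.Cyc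
open Crest.Agent.X262.Geo (od od_eq_zero essFT_Rf)
open Crest.Agent.X262.Hb
open Crest.Agent.X262.Node22 (chr chr_ne mem_Eb mem_Vt)
open Crest.Agent.X262.Bub96 (hv Tr)
open Crest.Agent.X262.Bub96.Tr (dot)

variable {J : Type} [Fintype J] [DecidableEq J] {io : J → Type} [∀ j, Fintype (io j)]
  [∀ j, DecidableEq (io j)] {A : Type} [Fintype A]
variable {I I' M : Type} [Fintype I] [Fintype I'] {K E L : Type} [Field K] [Algebra ℂ K] [Field E]
  [Algebra ℂ E] [Field L] [Algebra ℂ L]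

namespace Cfg

variable {z z' : Cfg io I' K} {g : I → I'} {κ : J → ℕ} {N : ℕ} {W : RZ ℂ K}

/-- the points `g` are norming in multidegree `κ` -/
def Nr (g : I → I') (κ : J → ℕ) (z : Cfg io I' K) : Prop :=
  ∀ σ ∈ z.V κ, ∀ (W : RZ ℂ K) (γ : W.1.ValueGroup),
    (∀ q, W.v (σ (g q)) ≤ γ * (lw κ (z.y (g q))).val W) →
    ∀ q, W.v (σ q) ≤ γ * (lw κ (z.y q)).val W

/-- norming up to `N` (this is `Wd54.NP N z g`) -/
def NrUp (g : I → I') (N : ℕ) (z : Cfg io I' K) : Prop := ∀ κ : J → ℕ, (∀ j, κ j ≤ N) → Nr g κ z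

/-- norming at one valuation ring -/
def NrAt (W : RZ ℂ K) (g : I → I') (κ : J → ℕ) (z : Cfg io I' K) : Prop :=
  ∀ σ ∈ z.V κ, nm (fun q => lw κ (z.y q)) W σ ≤ nm (fun q => lw κ (z.y (g q))) W fun q => σ (g q)

theorem nr_iff : Nr g κ z ↔ ∀ W, NrAt W g κ z :=
  ⟨fun h W σ hσ => nm_le.2 (h σ hσ W _ (nm_le.1 le_rfl)),
    fun h σ hσ W _ h1 => nm_le.1 ((h W σ hσ).trans (nm_le.2 h1))⟩

theorem NrAt.geq (h : NrAt W g κ z) (hz : z.NZ) (h' : Geq z z') : NrAt W g κ z' := by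
  obtain ⟨c, hc, rfl⟩ := h'
  rintro _ ⟨u, hu, rfl⟩
  have h1 := nm_scl (fun q => chr_ne (hc q) κ) (fun q => lw κ (z.y q)) W u
  have h2 := nm_scl (fun q => chr_ne (hc (g q)) κ) (fun q => lw κ (z.y (g q))) W fun q => u (g q)
  simp only [gau_y, lw_scl (hz _) (hc _)]
  exact h1.trans_le ((h u hu).trans_eq h2.symm)

theorem Nr.geq (h : Nr g κ z) (hz : z.NZ) (h' : Geq z z') : Nr g κ z' :=
  nr_iff.2 fun W => (nr_iff.1 h W).geq hz h'

theorem NrAt.inj (h : NrAt W g κ z) {σ : I' → K} (hσ : σ ∈ z.V κ) (h0 : ∀ q, σ (g q) = 0) :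
    σ = 0 := by
  have := h σ hσ
  rw [show (fun q => σ (g q)) = 0 from funext h0, nm_zero, le_zero_iff] at this
  exact nm_eq_zero.1 this

theorem Nr.inj (h : Nr g κ z) {σ : I' → K} (hσ : σ ∈ z.V κ) (h0 : ∀ q, σ (g q) = 0) : σ = 0 :=
  (nr_iff.1 h (RZ.top ℂ K)).inj hσ h0

theorem NrAt.red0_V {p : Pl ℂ K ℂ E} (h : NrAt p.V g κ z) (hz : z.Pr p.V) :
    ((z.res g).red0 p).V κ = ((z.red0 p).res g).V κ := by
  refine le_antisymm (redS_le ?_) (Submodule.map_le_iff_le_comap.2 (redS_le fun u hu hi =>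
    mem_redS p (Submodule.mem_map_of_mem (f := LinearMap.funLeft K K g) hu) fun q => hi (g q)))
  rintro _ ⟨u, hu, rfl⟩ hi
  refine ⟨_, mem_redS p hu fun q => ?_, rfl⟩
  have h1 := nm_le.1 ((h u hu).trans (nm_le.2 fun q => (RZ.le_one_iff.2 (hi q)).trans_eq
    (by rw [(hz _).val_lw, mul_one]))) q
  rwa [(hz q).val_lw, mul_one, RZ.le_one_iff] at h1

theorem NrAt.inj_red0 {p : Pl ℂ K ℂ E} (h : NrAt p.V g κ z) (hz : z.Pr p.V) {σ : I' → E}
    (hσ : σ ∈ (z.red0 p).V κ) (h0 : ∀ q, σ (g q) = 0) : σ = 0 := by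
  refine Bub96.inj_of_finrank (LinearMap.funLeft E E g) ((z.red0 p).V κ) ?_ σ hσ (funext h0)
  refine (congrArg (fun U : Submodule E (I → E) => Module.finrank E U) (h.red0_V hz)).symm.trans ?_
  change Module.finrank E (redS p _) = Module.finrank E (redS p _)
  rw [finrank_redS, finrank_redS]
  exact Bub96.finrank_map_of_inj _ _ fun u hu h1 => h.inj hu (congrFun h1)

theorem nrAt_of_inj (hz : z.Pr W)
    (h : ∀ σ ∈ (z.red0 (plV W)).V κ, (∀ q, σ (g q) = 0) → σ = 0) : NrAt W g κ z := by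
  intro σ hσ
  by_cases h0 : σ = 0
  · simp [h0]
  obtain ⟨c, hc⟩ := W.exists_v (nm (fun q => lw κ (z.y q)) W σ)
  have hc0 : c ≠ 0 := RZ.ne_zero_iff.1 (hc ▸ (nm_pos h0).ne')
  have ha : ∀ q, (lw κ (z.y q)).val (LP.at W).V = 1 := fun q => (hz q).val_lw κ
  have h1 : nm (fun q => lw κ (z.y q)) W (c⁻¹ • σ) = 1 := by
    rw [nm_smul, map_inv₀, hc, inv_mul_cancel₀ (nm_pos h0).ne']
  have h2 : Itg (LP.at W) (c⁻¹ • σ) := (itg_iff ha).2 h1.le
  have h3 := (rv_eq_zero ha h2).not.2 h1.not_lt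
  obtain ⟨q, hq⟩ := not_forall.1 fun h4 =>
    h3 (h _ (mem_redS (plV W) ((z.V κ).smul_mem c⁻¹ hσ) h2) h4)
  have h5 : W.v (c⁻¹ * σ (g q)) = 1 := Pl.r_ne_zero_iff.1 hq
  rw [map_mul, map_inv₀, inv_mul_eq_one₀ (RZ.pos hc0).ne'] at h5
  have h6 := le_nm (fun q => lw κ (z.y (g q))) W (fun q => σ (g q)) q
  rwa [(hz _).val_lw, mul_one, ← h5, hc] at h6

/-- norming points stay norming under reduction -/
theorem Nr.red (h : Nr g κ z) (hz : z.NZ) (p : LP K E) : Nr g κ (z.red p.toPl) := by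
  refine nr_iff.2 fun W => ?_
  have h0 := pr_nrm hz (p.comp (LP.at W)).V
  have h1 := pr_comp.1 h0
  have h2 := geq_gau z (nrm_ne (p.comp (LP.at W)).V z)
  refine (nrAt_of_inj h1.2 fun σ hσ => ?_).geq h1.1.nz_red0 (h2.red_red0 h1.1).symm
  refine ((nr_iff.1 h _).geq hz h2).inj_red0 (p := (p.comp (LP.at W)).toPl) h0 ?_
  rwa [red0_comp p _ h1.1]

theorem Nr.map (h : Nr g κ z) (hz : z.NZ) (α : K →ₐ[ℂ] E) : Nr g κ (z.map α) :=
  (h.red hz (LP.hom α)).geq (hz.red _) (red_hom α hz)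

theorem Nr.res_red_V (h : Nr g κ z) (hz : z.NZ) (p : Pl ℂ K ℂ E) :
    ((z.res g).red p).V κ = ((z.red p).res g).V κ := by
  rw [Cfg.red, Cfg.red,
    ← ((nr_iff.1 h _).geq hz (geq_gau z (nrm_ne p.V z))).red0_V (pr_nrm hz _), res_gau]
  rfl

theorem NrUp.red (h : NrUp g N z) (hz : z.NZ) (p : LP K E) : NrUp g N (z.red p.toPl) :=
  fun κ hκ => (h κ hκ).red hz p

theorem NrUp.map (h : NrUp g N z) (hz : z.NZ) (α : K →ₐ[ℂ] E) : NrUp g N (z.map α) :=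
  fun κ hκ => (h κ hκ).map hz α

theorem NrUp.geq (h : NrUp g N z) (hz : z.NZ) (h' : Geq z z') : NrUp g N z' :=
  fun κ hκ => (h κ hκ).geq hz h'

theorem NrUp.res_red (h : NrUp g N z) (hz : z.NZ) (p : Pl ℂ K ℂ E) :
    GeqN N ((z.red p).res g) ((z.res g).red p) :=
  GeqN.of_eq rfl fun κ hκ => (h κ hκ).res_red_V hz p

variable {T : Tgt io A}

theorem nm_res (h : ∀ a, Nr g (T.k a) z) {σ : A × I' → K} (hσ : σ ∈ z.Vt T) (V : RZ ℂ K) :
    nm ((z.res g).ea T) V (fun x => σ (x.1, g x.2)) = nm (z.ea T) V σ :=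
  nm_congr fun γ => ⟨fun h1 x => h x.1 _ (mem_Vt.1 hσ x.1) V γ (fun q => h1 (x.1, q)) x.2,
    fun h1 x => h1 (x.1, g x.2)⟩

theorem on_res (h : ∀ a, Nr g (T.k a) z) (hs : z.sv T ∈ z.Vt T) : (z.res g).On T ↔ z.On T :=
  ⟨fun h1 q a => congrFun ((h a).inj (mem_Vt.1 hs a) fun q => h1 q a) q, fun h1 q => h1 (g q)⟩

theorem dv_res (h : ∀ a, Nr g (T.k a) z) (hs : z.sv T ∈ z.Vt T) : (z.res g).dv T = z.dv T := by
  by_cases hO : z.On T
  · rw [dv_of_on T hO, dv_of_on T ((on_res h hs).2 hO)]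
  · exact ext' fun V => by
      rw [val_dv T hO, val_dv T ((on_res h hs).not.2 hO), ← nm_res h hs]
      rfl

theorem Vt_res (z : Cfg io I' K) (g : I → I') :
    (z.res g).Vt T = (z.Vt T).map (LinearMap.funLeft K K (Prod.map id g)) := by
  refine le_antisymm (fun σ hσ => ?_) ?_
  · choose u hu h1 using mem_Vt.1 hσ
    exact ⟨fun x => u x.1 x.2, mem_Vt.2 hu, funext fun x => congrFun (h1 x.1) x.2⟩
  · rintro _ ⟨σ, hσ, rfl⟩
    exact mem_Vt.2 fun a => ⟨_, mem_Vt.1 hσ a, rfl⟩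

theorem Eb_res {c : ℕ} (S : Syz T) (hM : z.Mul) (he : ∀ b, Nr g (S.e b) z) (hO : z.On T)
    (hR : ∀ q, S.Reg c (z.y q)) :
    (z.res g).Eb T = (z.Eb T).map (LinearMap.funLeft K K (Prod.map id g)) := by
  refine le_antisymm (fun σ hσ => ?_) ?_
  · obtain ⟨τ, h1, rfl⟩ := (Vt_res z g).le hσ.1
    refine ⟨τ, mem_Eb.2 ⟨mem_Vt.1 h1, fun q => (hR q).2 _ fun b => ?_⟩, rfl⟩
    exact congrFun ((he b).inj (hM.rho_mem S h1 b) fun q =>
      S.rho_Nm (hO (g q)) ((mem_Eb.1 hσ).2 q) b) q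
  · rintro _ ⟨σ, hσ, rfl⟩
    exact mem_Eb.2 ⟨fun a => ⟨_, (mem_Eb.1 hσ).1 a, rfl⟩, fun q => (mem_Eb.1 hσ).2 (g q)⟩

end Cfg

variable {B : Th} {T : Tgt io A} {z : Cfg io I' K} {g : I → I'} {m : M → I} {Φ : MFam B io M}
  {N c : ℕ}

theorem cpz_res (hB : B.Ax) [Algebra.EssFiniteType ℂ K] (S : Syz T) (hM : z.Mul)
    (hk : ∀ a, z.Nr g (T.k a)) (he : ∀ b, z.Nr g (S.e b)) (hO : z.On T)
    (hR : ∀ q, S.Reg c (z.y q)) : cpz B T (z.res g) = cpz B T z := by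
  rw [cpz, Cfg.Eb_res S hM he hO hR]
  exact hB.cp_iso fun V _ hx => Cfg.nm_res hk hx.1 V

/-- the Chern polynomial of the reduction -/
theorem cpz_res_red (hB : B.Ax) [Algebra.EssFiniteType ℂ E] (S : Syz T)
    (hk : ∀ a j, T.k a j ≤ N) (he : ∀ b j, S.e b j ≤ N) (hz : z.NZ) (hM : z.Mul)
    (h : z.NrUp g N) {p : LP K E} (hO : (z.red p.toPl).On T)
    (hR : ∀ q, S.Reg c ((z.red p.toPl).y q)) :
    cpz B T ((z.res g).red p.toPl) = cpz B T (z.red p.toPl) := by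
  rw [cpz_geqN hB hk (h.res_red hz _) ((hz.red _).res g),
    cpz_res hB S (hM.red hz _) (fun a => h.red hz p _ (hk a)) (fun b => h.red hz p _ (he b)) hO hR]

theorem trm_res (hB : B.Ax) [Algebra.EssFiniteType ℂ K] (S : Syz T)
    (hk : ∀ a j, T.k a j ≤ N) (he : ∀ b j, S.e b j ≤ N) (hz : z.NZ) (hM : z.Mul)
    (h : z.NrUp g N) {W : RZ ℂ K} (hW : Dvs W) (hO : (z.red (plV W)).On T)
    (hR : ∀ q, S.Reg c ((z.red (plV W)).y q)) :
    trm B T z (fun q => g (m q)) Φ W = trm B T (z.res g) m Φ W := by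
  have := essFT_Rf hW
  have h1 : cpz B T ((z.res g).red (plV W)) = cpz B T (z.red (plV W)) :=
    cpz_res_red hB S hk he hz hM h (p := LP.at W) hO hR
  rw [trm, trm, Cfg.dv_res (fun a => h _ (hk a)) (hM.sv_mem T), exc_congr h1]
  rfl

theorem vir_res' (hB : B.Ax) [Algebra.EssFiniteType ℂ K] (S : Syz T)
    (hk : ∀ a j, T.k a j ≤ N) (he : ∀ b j, S.e b j ≤ N) (hz : z.NZ) (hM : z.Mul)
    (h : z.NrUp g N) (hR : ∀ W, Dvs W → (z.red (plV W)).On T →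
      ∀ q, S.Reg c ((z.red (plV W)).y q)) :
    vir B T z (fun q => g (m q)) Φ = vir B T (z.res g) m Φ :=
  vir_congr (Cfg.dv_res (fun a => h _ (hk a)) (hM.sv_mem T)).symm fun W hW h1 => by
    rw [trm_res hB S hk he hz hM h hW (on_at hz h1) (hR W hW (on_at hz h1))]

/-! ### data -/

namespace Dat

open Polynomial

variable {d : J → ℕ}

theorem cfg_nz (ξ : Dat io d I K) : ξ.cfg.NZ := Tree87.nz_cfg ξ

theorem mem_cfg {ξ : Dat io d I K} {κ : J → ℕ} {u : I → K} : u ∈ ξ.cfg.V κ ↔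
    ∃ σ : K[X], σ.natDegree ≤ dot κ d ∧ (fun q => hv (dot κ d) σ (ξ.x q)) = u :=
  exists_congr fun _ => and_congr_left fun _ => mem_degreeLE.trans natDegree_le_iff_degree_le.symm

theorem cfg_mul (ξ : Dat io d I K) : ξ.cfg.Mul where
  one := mem_cfg.2 ⟨1, by simp, _root_.funext fun q => by
    rcases ξ.x q with _ | t <;> simp [hv, dot]⟩
  crd j i := by
    have h : dot (Pi.single j 1) d = d j := by
      rw [dot, Finset.sum_eq_single j (fun j' _ hj => by simp [hj]) (by simp)]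
      simp
    exact mem_cfg.2 ⟨ξ.f j i, h ▸ ξ.cp.1 j i, h ▸ rfl⟩
  mul κ κ' u u' hu hu' := by
    obtain ⟨σ, h1, rfl⟩ := mem_cfg.1 hu
    obtain ⟨σ', h2, rfl⟩ := mem_cfg.1 hu'
    have h : dot (κ + κ') d = dot κ d + dot κ' d := by
      simp [dot, add_mul, Finset.sum_add_distrib]
    refine mem_cfg.2 ⟨σ * σ', h ▸ natDegree_mul_le.trans (add_le_add h1 h2), ?_⟩
    rw [h]
    exact _root_.funext fun q => Bub96.hv_mul h1 h2 _

theorem map_id (ξ : Dat io d I K) : ξ.map (AlgHom.id ℂ K) = ξ := by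
  cases ξ
  simp [Dat.map]

theorem res_cfg (ξ : Dat io d I' K) (g : I → I') : (ξ.res g).cfg = ξ.cfg.res g :=
  Cfg.ext (fun _ => rfl) fun κ => by
    change _ = Submodule.map _ (Submodule.map _ _)
    rw [← Submodule.map_comp]
    rfl

theorem nr_cfg {ξ : Dat io d I' K} {κ : J → ℕ} (h : (ξ.res g).Nrm κ) : ξ.cfg.Nr g κ := by
  intro u hu W γ h1 q
  obtain ⟨σ, hσ, rfl⟩ := mem_cfg.1 hu
  obtain ⟨e, rfl⟩ := W.exists_v γ
  by_cases he : e = 0
  · obtain rfl := Bub96.nrm_inj h hσ fun q => show hv _ σ (ξ.x (g q)) = 0 by simpa [he] using h1 q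
    simp [Bub96.hv_zero]
  have h2 := h K (AlgHom.id ℂ K) W (C e⁻¹ * σ) ((natDegree_C_mul_le _ _).trans hσ)
  rw [map_id] at h2
  simp only [Bub96.hv_C_mul, map_mul, map_inv₀, inv_mul_le_iff₀ (RZ.pos he)] at h2
  exact h2 h1 (ξ.x q)

theorem nrUp_cfg {ξ : Dat io d I' K} (h : (ξ.res g).NrmUp N) : ξ.cfg.NrUp g N :=
  fun κ hκ => nr_cfg (h κ hκ)

theorem nrmUp_of_res {ξ : Dat io d I' K} (h : (ξ.res g).NrmUp N) : ξ.NrmUp N :=
  fun κ hκ F _ _ β W σ h1 h2 => h κ hκ F β W σ h1 fun q => h2 (g q)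

end Dat

/-- all data attached to a good target -/
theorem Good.exists {d : J → ℕ} (hG : Good T c d) : ∃ (S : Syz T) (N : ℕ),
    (∀ a j, T.k a j ≤ N) ∧ (∀ b j, S.e b j ≤ N) ∧
    ∀ {I K : Type} [Fintype I] [Field K] [Algebra ℂ K] (ξ : Dat io d I K), ξ.NrmUp N →
      Rk T ξ.cfg ∧ ∀ {E : Type} [Field E] [Algebra ℂ E] (p : Pl ℂ K ℂ E), (ξ.cfg.red p).On T →
        ∀ q, S.Reg c ((ξ.cfg.red p).y q) := by
  obtain ⟨N₁, h1⟩ := rk_of Tree87.rankStmt hG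
  obtain ⟨-, S, hS⟩ := hG
  obtain ⟨N₂, h2⟩ := Tree87.exists_big S
  have h3 := h2 (max N₁ N₂) (le_max_right _ _)
  exact ⟨S, max N₁ N₂, h3.k_le, h3.e_le, fun ξ h => ⟨h1 ξ ξ.cfg_nz fun κ hκ =>
    h κ fun j => (hκ j).trans (le_max_left _ _), fun p hO =>
      (Bub96.tl_red h p).reg hS h3 hO⟩⟩

theorem Good.rk {d : J → ℕ} (hG : Good T c d) : ∃ N : ℕ,
    ∀ {I K : Type} [Fintype I] [Field K] [Algebra ℂ K] (ξ : Dat io d I K), ξ.NrmUp N →
      Rk T ξ.cfg := by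
  obtain ⟨S, N, -, -, h⟩ := hG.exists
  exact ⟨N, fun ξ hξ => (h ξ hξ).1⟩

/-- **independence of the norming points** (term by term, and for the sum) -/
theorem Good.res {d : J → ℕ} (hG : Good T c d) (hB : B.Ax) : ∃ N : ℕ,
    ∀ {I I' K : Type} [Fintype I] [Fintype I'] [Field K] [Algebra ℂ K] (ξ : Dat io d I' K)
      (g : I → I'), (ξ.res g).NrmUp N → (ξ.res g).cfg.dv T = ξ.cfg.dv T ∧
      (∀ {E : Type} [Field E] [Algebra ℂ E] [Algebra.EssFiniteType ℂ E] (p : LP K E),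
        (ξ.cfg.red p.toPl).On T → cpF B T (ξ.res g).cfg E p = cpF B T ξ.cfg E p) ∧
      ∀ [Algebra.EssFiniteType ℂ K] {M : Type} (m : M → I) (Φ : MFam B io M),
        vir B T ξ.cfg (fun q => g (m q)) Φ = vir B T (ξ.res g).cfg m Φ := by
  obtain ⟨S, N, hk, he, h⟩ := hG.exists
  refine ⟨N, fun ξ g hξ => ?_⟩
  have h1 := h ξ (Dat.nrmUp_of_res hξ)
  have h2 := Dat.nrUp_cfg hξ
  rw [Dat.res_cfg]
  exact ⟨Cfg.dv_res (fun a => h2 _ (hk a)) (ξ.cfg_mul.sv_mem T),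
    fun p hO => cpz_res_red hB S hk he ξ.cfg_nz ξ.cfg_mul h2 hO (h1.2 _ hO),
    fun m Φ => vir_res' hB S hk he ξ.cfg_nz ξ.cfg_mul h2 fun W _ hO => h1.2 _ hO⟩

end Crest.Agent.X262.Vb
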