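import Crest.Agent.X262.Vb.Cfg
import Crest.Agent.X262.Hb.Defs

/-!
# Row 262, road B (helper90), part 1: virtual numbers, invariants, the list of statements

* `Fam`, `Cls T`   : classes at the field-valued points of the target, natural for places;
  `MFam`, `MCls T M` : the same for families of points indexed by `M`; `prd` : products;
* `vir T z m Φ`    : `∑_W ord_W D · ∫_W Q_E(d) Φ(ev)`;
* `IsGW`, `GW`     : genus zero primary invariants of multidegree `d` with marks `M`;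
* `hc`, `cT`, `c1T`, `dgc` : hyperplane classes, tangent bundle, diagonal class;
* the statements `ExNrm`, `RankStmt`, `PbStmt`, `Ax0Stmt`, `AxSStmt`, `AxDStmt`, `Deg0Stmt`,
  `WdvvStmt`.
-/

set_option autoImplicit false
set_option linter.unusedSectionVars false

noncomputable section

namespace Crest.Agent.X262.Vb

open Crest.Agent.X277 Crest.Agent.X277.BD Crest.Agent.X277.Pst Crest.Agent.X277.BD.Cyc Polynomial
open Crest.Agent.X262.Geo (od)
open Crest.Agent.X262.Hb
open Crest.Agent.X262.Bub96 (hv Tr)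
open Crest.Agent.X262.Bub96.Tr (dot)

variable {J : Type} [Fintype J] [DecidableEq J] {io : J → Type} [∀ j, Fintype (io j)]
  [∀ j, DecidableEq (io j)] {A : Type} [Fintype A]

/-- families of classes at points -/
abbrev Fam (B : Th) (io : J → Type) : Type 1 :=
  ∀ (E : Type) [Field E] [Algebra ℂ E], Pnt io E → B.H E

/-- families of classes at tuples of points -/
abbrev MFam (B : Th) (io : J → Type) (M : Type) : Type 1 :=
  ∀ (E : Type) [Field E] [Algebra ℂ E], (M → Pnt io E) → B.H E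

variable (B : Th) (T : Tgt io A)

/-- classes on the target: invariant under scaling, natural for places -/
structure Cls (α : Fam B io) : Prop where
  scl : ∀ (E : Type) [Field E] [Algebra ℂ E] [Algebra.EssFiniteType ℂ E] (y : Pnt io E) (c : J → E),
    (∀ j, c j ≠ 0) → NZ y → T.On y → α E (fun j i => c j * y j i) = α E y
  nat : ∀ (K E : Type) [Field K] [Algebra ℂ K] [Algebra.EssFiniteType ℂ K] [Field E] [Algebra ℂ E]
    [Algebra.EssFiniteType ℂ E] (p : LP K E) (y : Pnt io K), Prim p.V y → T.On y →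
    B.pb p (α K y) = α E (redP p.toPl y)

/-- classes on a power of the target -/
structure MCls {M : Type} (Φ : MFam B io M) : Prop where
  scl : ∀ (E : Type) [Field E] [Algebra ℂ E] [Algebra.EssFiniteType ℂ E] (y : M → Pnt io E)
    (c : M → J → E), (∀ q j, c q j ≠ 0) → (∀ q, NZ (y q)) → (∀ q, T.On (y q)) →
    Φ E (fun q j i => c q j * y q j i) = Φ E y
  nat : ∀ (K E : Type) [Field K] [Algebra ℂ K] [Algebra.EssFiniteType ℂ K] [Field E] [Algebra ℂ E]
    [Algebra.EssFiniteType ℂ E] (p : LP K E) (y : M → Pnt io K), (∀ q, Prim p.V (y q)) →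
    (∀ q, T.On (y q)) → B.pb p (Φ K y) = Φ E fun q => redP p.toPl (y q)

variable {B} in
/-- the product of one class for every mark -/
def prd {M : Type} [Fintype M] (α : M → Fam B io) : MFam B io M :=
  fun E _ _ y => ∏ q, α q E (y q)

/-- the family has Hodge type `(p, q)` on the target -/
def MTy {M : Type} (Φ : MFam B io M) (p q : ℕ) : Prop :=
  ∀ (E : Type) [Field E] [Algebra ℂ E] [Algebra.EssFiniteType ℂ E] (y : M → Pnt io E),
    (∀ x, NZ (y x)) → (∀ x, T.On (y x)) → Φ E y ∈ B.ty E p q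

section Vir

variable {I M : Type} [Fintype I] {E : Type} [Field E] [Algebra ℂ E]

/-- the excess class `Q_E(δ)` of a configuration on the target -/
def exc (z : Cfg io I E) (δ : B.H E) : B.H E := (B.cq (z.ea T) (z.Eb T)).eval δ

/-- the integrand on the component `W` -/
def trm (z : Cfg io I E) (m : M → I) (Φ : MFam B io M) (W : RZ ℂ E) : B.H (Rf W) :=
  exc B T (z.red (plV W)) (B.pb (LP.at W) (B.c1 (z.dv T))) *
    Φ (Rf W) fun q => (z.red (plV W)).y (m q)

/-- the virtual number of a configuration -/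
def vir (z : Cfg io I E) (m : M → I) (Φ : MFam B io M) : ℂ :=
  ∑ᶠ (W : RZ ℂ E) (_ : Dvs W), od W (z.dv T) * B.itg (Rf W) (trm B T z m Φ W)

end Vir

/-- `ξ` (points `I`, marks `m`) is the universal datum up to a field extension `θ` -/
def Over {d : J → ℕ} {I M K K₀ : Type} [Fintype M] [Field K] [Algebra ℂ K] [Field K₀]
    [Algebra ℂ K₀] (ξ : Dat io d I K) (m : M → I) (θ : K₀ →ₐ[ℂ] K) : Prop :=
  ∃ ξ₀ : Dat io d M K₀, ξ₀.Univ ∧ (ξ₀.map θ).Eqv (ξ.res m)

/-- `v` is the invariant -/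
def IsGW (d : J → ℕ) {M : Type} [Fintype M] (Φ : MFam B io M) (v : ℂ) : Prop :=
  ∃ N : ℕ, ∀ (K K₀ I : Type) [Field K] [Algebra ℂ K] [Algebra.EssFiniteType ℂ K] [Field K₀]
    [Algebra ℂ K₀] [Algebra.EssFiniteType ℂ K₀] [Fintype I] (ξ : Dat io d I K) (m : M → I)
    (θ : K₀ →ₐ[ℂ] K), Over ξ m θ → ξ.NrmUp N → vir B T ξ.cfg m Φ = deg θ * v

open Classical in
/-- genus zero primary invariants -/
def GW (d : J → ℕ) {M : Type} [Fintype M] (Φ : MFam B io M) : ℂ :=
  if h : ∃! v, IsGW B T d Φ v then h.choose else 0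

/-- three distinguished insertions and further ones -/
def gw3 (d : J → ℕ) (x : Fin 3 → Fam B io) {S : Type} [Fintype S] (α : S → Fam B io) : ℂ :=
  GW B T d (prd (Sum.elim x α))

/-! ### standard classes -/

/-- the hyperplane class of the factor `j` -/
def hc (j : J) : Fam B io := fun _ _ _ y => B.c1 (ln y j)

section Std

variable {E : Type} [Field E] [Algebra ℂ E]

/-- the Euler vectors -/
def eul (y : Pnt io E) : Submodule E (Vr io → E) :=
  Submodule.span E (Set.range fun (j : J) (v : Vr io) => if v.1 = j then y v.1 v.2 else 0)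

/-- `c_top (T_Y (-X))` at the point `y` -/
def cT (y : Pnt io E) : (B.H E)[X] :=
  B.cp2 (fun v : Vr io => ln y v.1) (eul y) (LinearMap.ker (T.jac y))

/-- the equations of the diagonal -/
def wdg (y y' : Pnt io E) : (Σ j, io j × io j) → E :=
  fun v => y v.1 v.2.1 * y' v.1 v.2.2 - y v.1 v.2.2 * y' v.1 v.2.1

/-- the divisor of the ideal of the diagonal -/
def dh (y y' : Pnt io E) : BD ℂ E := -sz (wdg y y') fun v => ln y v.1 + ln y' v.1

open Classical in
/-- the class of the diagonal at a pair of points -/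
def dgc (y y' : Pnt io E) : B.H E :=
  (cT B T y).eval 0 - if wdg y y' = 0 then 0 else (cT B T y).eval (B.c1 (dh y y'))

end Std

/-- the first Chern class of the normal bundle (codimension `c`) -/
def c1N (c : ℕ) : Fam B io := fun _ _ _ y =>
  (-1) ^ (c - 1) * (B.cp (fun a => lw (T.k a) y) (T.Nm y)).coeff (c - 1)

/-- the first Chern class of the target -/
def c1T (c : ℕ) : Fam B io := fun E _ _ y =>
  ∑ j, (Fintype.card (io j) : B.H E) * hc B j E y - c1N B T c E y

/-- Kuenneth decomposition of the diagonal (even part) -/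
def Diag {ι : Type} [Fintype ι] (e e' : ι → Fam B io) : Prop :=
  ∀ (K₁ K₂ L : Type) [Field K₁] [Algebra ℂ K₁] [Algebra.EssFiniteType ℂ K₁] [Field K₂]
    [Algebra ℂ K₂] [Algebra.EssFiniteType ℂ K₂] [Field L] [Algebra ℂ L]
    [Algebra.EssFiniteType ℂ L] (α₁ : K₁ →ₐ[ℂ] L) (α₂ : K₂ →ₐ[ℂ] L), Prd α₁ α₂ →
    ∀ (y₁ : Pnt io K₁) (y₂ : Pnt io K₂), NZ y₁ → T.On y₁ → NZ y₂ → T.On y₂ →
    ∀ (x₁ : B.H K₁) (x₂ : B.H K₂),
      B.itg L (B.pb (LP.hom α₁) x₁ * B.pb (LP.hom α₂) x₂ *
          dgc B T (fun j i => α₁ (y₁ j i)) fun j i => α₂ (y₂ j i)) =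
        ∑ l, B.itg K₁ (x₁ * e l K₁ y₁) * B.itg K₂ (x₂ * e' l K₂ y₂)

/-- the dimension of the ambient space -/
def adim (io : J → Type) [∀ j, Fintype (io j)] : ℕ := ∑ j, (Fintype.card (io j) - 1)

/-- `y₀` is the generic point of the (irreducible) target of codimension `c` -/
structure GenPt (c : ℕ) {K : Type} [Field K] [Algebra ℂ K] (y₀ : Pnt io K) : Prop where
  nz : NZ y₀
  on : T.On y₀
  gen : IntermediateField.adjoin ℂ {t | ∃ j i i', t = y₀ j i / y₀ j i'} = ⊤
  dm : dim ℂ K + c = adim io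
  irr : ∀ q κ, MH q κ → pv y₀ q = 0 → ∀ (E : Type) [Field E] [Algebra ℂ E] (y : Pnt io E),
    NZ y → T.On y → pv y q = 0

/-- the points lie on a connected genus zero curve of multidegree `d` in the target -/
def TreePts (d : J → ℕ) {M E : Type} [Field E] [Algebra ℂ E] (y : M → Pnt io E) : Prop :=
  ∃ (L : Type) (_ : Field L) (_ : Algebra ℂ L) (_ : IsAlgClosed L) (α : E →ₐ[ℂ] L) (t : Tr L J io)
    (x : M → t.Pt) (c : M → J → L), t.OK ∧ t.deg = d ∧ (∀ u, T.On (t.ev u)) ∧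
    (∀ q j, c q j ≠ 0) ∧ ∀ q j i, α (y q j i) = c q j * t.ev (x q) j i

/-! ### statements -/

/-- norming points exist over a finite extension (owner 96) -/
def ExNrm : Prop :=
  ∀ {J : Type} [Fintype J] [DecidableEq J] {io : J → Type} [∀ j, Fintype (io j)]
    [∀ j, DecidableEq (io j)] {d : J → ℕ} {M K : Type} [Fintype M] [Field K] [Algebra ℂ K] [Algebra.EssFiniteType ℂ K]
    (ξ : Dat io d M K) (N : ℕ), ∃ (L : Type) (_ : Field L) (_ : Algebra ℂ L)
    (_ : Algebra.EssFiniteType ℂ L) (θ : K →ₐ[ℂ] L) (n : ℕ) (η : Dat io d (M ⊕ Fin n) L),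
    0 < deg θ ∧ η.res Sum.inl = ξ.map θ ∧ η.NrmUp N

/-- the obstruction space commutes with specialisation inside the target, and contains the
direction of the section (owner 87) -/
def RankStmt : Prop :=
  ∀ {J : Type} [Fintype J] [DecidableEq J] {io : J → Type} [∀ j, Fintype (io j)]
    [∀ j, DecidableEq (io j)] {A : Type} [Fintype A] (T : Tgt io A) (c : ℕ) (d : J → ℕ),
    Good T c d → ∃ N : ℕ, ∀ {I K E : Type} [Fintype I] [Field K] [Algebra ℂ K] [Field E]
    [Algebra ℂ E] (ξ : Dat io d I K), ξ.NrmUp N → ∀ p : LP K E, (ξ.cfg.red p.toPl).On T →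
    (∀ {L : Type} [Field L] [Algebra ℂ L] (q : LP E L) (c' : I → J → E), (∀ x j, c' x j ≠ 0) →
      (∀ x, Prim q.V (((ξ.cfg.red p.toPl).gau c').y x)) →
      (((ξ.cfg.red p.toPl).gau c').red0 q.toPl).Eb T =
        redS q.toPl (((ξ.cfg.red p.toPl).gau c').Eb T)) ∧
    ∀ u : K, (∀ x, u * (ξ.cfg.gau (ξ.cfg.nrm p.V)).sv T x ∈ p.V.1) →
      (fun x => p.r (u * (ξ.cfg.gau (ξ.cfg.nrm p.V)).sv T x)) ∈ (ξ.cfg.red p.toPl).Eb T

/-- pull-back along a field extension multiplies by the degree (owner 40) -/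
def PbStmt : Prop :=
  ∀ (B : Th), B.Ax → ∀ {J : Type} [Fintype J] [DecidableEq J] {io : J → Type}
    [∀ j, Fintype (io j)] [∀ j, DecidableEq (io j)] {A : Type} [Fintype A] (T : Tgt io A)
    {I M K L : Type} [Fintype I] [Field K] [Algebra ℂ K] [Algebra.EssFiniteType ℂ K] [Field L]
    [Algebra ℂ L] [Algebra.EssFiniteType ℂ L] (θ : K →ₐ[ℂ] L) (z : Cfg io I K) (m : M → I)
    (Φ : MFam B io M), z.NZ → MCls B T Φ → vir B T (z.map θ) m Φ = deg θ * vir B T z m Φ

/-- the formal axioms of the invariants of one target in one multidegree (owner 90) -/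
structure Ax0 (d : J → ℕ) : Prop where
  /-- well defined -/
  gw : ∀ {M : Type} [Fintype M] (Φ : MFam B io M), MCls B T Φ → IsGW B T d Φ (GW B T d Φ)
  add : ∀ {M : Type} [Fintype M] (Φ Ψ : MFam B io M), MCls B T Φ → MCls B T Ψ →
    GW B T d (Φ + Ψ) = GW B T d Φ + GW B T d Ψ
  smul : ∀ {M : Type} [Fintype M] (a : ℂ) (Φ : MFam B io M), MCls B T Φ →
    GW B T d (a • Φ) = a * GW B T d Φ
  perm : ∀ {M M' : Type} [Fintype M] [Fintype M'] (e : M ≃ M') (Φ : MFam B io M),
    GW B T d (M := M') (fun E _ _ y => Φ E fun q => y (e q)) = GW B T d Φ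
  /-- support -/
  supp : ∀ {M : Type} [Fintype M] (Φ Ψ : MFam B io M), MCls B T Φ → MCls B T Ψ →
    (∀ (E : Type) [Field E] [Algebra ℂ E] [Algebra.EssFiniteType ℂ E] (y : M → Pnt io E),
      TreePts T d y → Φ E y = Ψ E y) → GW B T d Φ = GW B T d Ψ
  /-- Hodge type -/
  typ : ∀ {M : Type} [Fintype M] (Φ : MFam B io M) (p q : ℕ), MCls B T Φ → MTy B T Φ p q → p ≠ q →
    GW B T d Φ = 0

/-- string and divisor equations -/
structure AxS (d : J → ℕ) : Prop where
  str : ∀ {M : Type} [Fintype M] (Φ : MFam B io M), MCls B T Φ → d ≠ 0 ∨ 3 ≤ Fintype.card M →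
    GW B T d (M := Option M) (fun E _ _ y => Φ E fun q => y (some q)) = 0
  dvz : ∀ {M : Type} [Fintype M] (Φ : MFam B io M) (j : J), MCls B T Φ → 3 ≤ Fintype.card M →
    GW B T d (M := Option M) (fun E _ _ y => hc B j E (y none) * Φ E fun q => y (some q)) =
      d j * GW B T d Φ

/-- dimension axiom -/
def AxD (c : ℕ) (d : J → ℕ) : Prop :=
  ∀ (e : J → ℚ), (∀ (E : Type) [Field E] [Algebra ℂ E] [Algebra.EssFiniteType ℂ E]
      (y : Pnt io E), NZ y → T.On y → c1T B T c E y = ∑ j, (e j : ℂ) • hc B j E y) →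
    ∀ {M : Type} [Fintype M] (Φ : MFam B io M) (p q : ℕ), MCls B T Φ → MTy B T Φ p q →
    GW B T d Φ ≠ 0 → (p : ℚ) + c + 3 = adim io + ∑ j, e j * d j + Fintype.card M

/-- degree zero (owner 89) -/
def Deg0 (c : ℕ) : Prop :=
  ∀ {K : Type} [Field K] [Algebra ℂ K] [Algebra.EssFiniteType ℂ K] (y₀ : Pnt io K),
    GenPt T c y₀ → ∀ {M : Type} [Fintype M] (Φ : MFam B io M), MCls B T Φ →
    GW B T 0 Φ = if Fintype.card M = 3 then B.itg K (Φ K fun _ => y₀) else 0

/-- the side `(x₁ x₂ | x₃ x₄)` of the associativity equation -/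
def wd (d : J → ℕ) {ι : Type} [Fintype ι] (e e' : ι → Fam B io) (x₁ x₂ x₃ x₄ : Fam B io)
    {M : Type} [Fintype M] [DecidableEq M] (α : M → Fam B io) : ℂ :=
  ∑ d₁ ∈ Finset.Iic d, ∑ S : Finset M, ∑ l,
    gw3 B T d₁ ![x₁, x₂, e l] (fun q : {q // q ∈ S} => α q) *
      gw3 B T (d - d₁) ![e' l, x₃, x₄] (fun q : {q // q ∉ S} => α q)

/-- associativity (owner 54) -/
def Wdvv : Prop :=
  ∀ {ι : Type} [Fintype ι] (e e' : ι → Fam B io), (∀ l, Cls B T (e l)) → (∀ l, Cls B T (e' l)) →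
    Diag B T e e' → ∀ (d : J → ℕ) (x₁ x₂ x₃ x₄ : Fam B io), Cls B T x₁ → Cls B T x₂ →
    Cls B T x₃ → Cls B T x₄ → ∀ {M : Type} [Fintype M] [DecidableEq M] (α : M → Fam B io),
    (∀ q, Cls B T (α q)) →
    wd B T d e e' x₁ x₂ x₃ x₄ α = wd B T d e e' x₁ x₃ x₂ x₄ α

/-- the formal axioms -/
def Ax0Stmt : Prop :=
  ∀ (B : Th), B.Ax → ∀ {J : Type} [Fintype J] [DecidableEq J] {io : J → Type}
    [∀ j, Fintype (io j)] [∀ j, DecidableEq (io j)] {A : Type} [Fintype A] (T : Tgt io A) (c : ℕ)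
    (d : J → ℕ), Good T c d → Ax0 B T d

/-- string and divisor -/
def AxSStmt : Prop :=
  ∀ (B : Th), B.Ax → ∀ {J : Type} [Fintype J] [DecidableEq J] {io : J → Type}
    [∀ j, Fintype (io j)] [∀ j, DecidableEq (io j)] {A : Type} [Fintype A] (T : Tgt io A) (c : ℕ)
    (d : J → ℕ), Good T c d → AxS B T d

/-- dimension -/
def AxDStmt : Prop :=
  ∀ (B : Th), B.Ax → ∀ {J : Type} [Fintype J] [DecidableEq J] {io : J → Type}
    [∀ j, Fintype (io j)] [∀ j, DecidableEq (io j)] {A : Type} [Fintype A] (T : Tgt io A) (c : ℕ)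
    (d : J → ℕ), Good T c d → AxD B T c d

/-- degree zero -/
def Deg0Stmt : Prop :=
  ∀ (B : Th), B.Ax → ∀ {J : Type} [Fintype J] [DecidableEq J] {io : J → Type}
    [∀ j, Fintype (io j)] [∀ j, DecidableEq (io j)] {A : Type} [Fintype A] (T : Tgt io A) (c : ℕ),
    Smo T c → Deg0 B T c

/-- associativity -/
def WdvvStmt : Prop :=
  ∀ (B : Th), B.Ax → ∀ {J : Type} [Fintype J] [DecidableEq J] {io : J → Type}
    [∀ j, Fintype (io j)] [∀ j, DecidableEq (io j)] {A : Type} [Fintype A] (T : Tgt io A) (c : ℕ),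
    Smo T c → Wdvv B T

end Crest.Agent.X262.Vb
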