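import Crest.Agent.X262.Vb.Defs

/-!
# Row 262, road B (helper90), part 2: echelon bases; `redS`, `mapS`, `sclS`
-/

set_option autoImplicit false
set_option linter.unusedSectionVars false

noncomputable section

namespace Crest.Agent.X262.Vb

open Crest.Agent.X277 Crest.Agent.X277.BD Crest.Agent.X277.BD.Cyc
open Crest.Agent.X262.Hb

variable {P : Type} [Fintype P] {K E L : Type} [Field K] [Algebra ℂ K] [Field E] [Algebra ℂ E]
  [Field L] [Algebra ℂ L]

open Classical in
/-- `u s`, `s ∈ S`, is the echelon basis of `U` with pivots `S` -/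
structure Ech (U : Submodule K (P → K)) (S : Finset P) (u : P → P → K) : Prop where
  mem : ∀ s ∈ S, u s ∈ U
  piv : ∀ s ∈ S, ∀ t ∈ S, u s t = if s = t then 1 else 0
  exp : ∀ w ∈ U, ∀ x, w x = ∑ s ∈ S, w s * u s x

namespace Ech

variable {U : Submodule K (P → K)} {S : Finset P} {u : P → P → K}

theorem mem_iff (h : Ech U S u) {w : P → K} : w ∈ U ↔ ∀ x, w x = ∑ s ∈ S, w s * u s x := by
  refine ⟨h.exp w, fun hw => ?_⟩
  have : w = ∑ s ∈ S, w s • u s := by
    funext x
    rw [hw x, Finset.sum_apply]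
    rfl
  rw [this]
  exact sum_mem fun s hs => U.smul_mem _ (h.mem s hs)

theorem unique {U' : Submodule K (P → K)} (h : Ech U S u) (h' : Ech U' S u) : U = U' := by
  ext w
  rw [h.mem_iff, h'.mem_iff]

theorem sum_piv (h : Ech U S u) (c : P → K) {t : P} (ht : t ∈ S) : ∑ s ∈ S, c s * u s t = c t := by
  classical
  rw [Finset.sum_eq_single t (fun s hs hst => by rw [h.piv s hs t ht, if_neg hst, mul_zero])
    fun h0 => (h0 ht).elim, h.piv t ht t ht, if_pos rfl, mul_one]

theorem sum_mem (h : Ech U S u) (c : P → K) : (fun x => ∑ s ∈ S, c s * u s x) ∈ U :=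
  h.mem_iff.2 fun x => Finset.sum_congr rfl fun s hs => by rw [h.sum_piv c hs]

theorem finrank_eq (h : Ech U S u) : Module.finrank K U = S.card := by
  let e : U ≃ₗ[K] (S → K) := LinearEquiv.ofBijective
    ((LinearMap.funLeft K K (Subtype.val : S → P)).comp U.subtype) ⟨?_, fun c => ?_⟩
  · rw [e.finrank_eq, Module.finrank_fintype_fun_eq_card, Fintype.card_coe]
  · rw [injective_iff_map_eq_zero]
    intro w hw
    refine Subtype.ext (funext fun x => ?_)
    rw [h.exp w w.2 x]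
    exact Finset.sum_eq_zero fun s hs => by
      rw [show w.1 s = 0 from congrFun hw ⟨s, hs⟩, zero_mul]
  · classical
    refine ⟨⟨_, h.sum_mem fun s => if hs : s ∈ S then c ⟨s, hs⟩ else 0⟩, funext fun t => ?_⟩
    change ∑ s ∈ S, _ * u s t = _
    rw [h.sum_piv _ t.2, dif_pos t.2]

/-- a spanning family which satisfies the echelon equations -/
theorem of_span {G : Set (P → K)} (h1 : ∀ s ∈ S, u s ∈ G)
    (h2 : ∀ s ∈ S, ∀ t ∈ S, u s t = open Classical in if s = t then 1 else 0)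
    (h3 : ∀ w ∈ G, ∀ x, w x = ∑ s ∈ S, w s * u s x) : Ech (Submodule.span K G) S u := by
  refine ⟨fun s hs => Submodule.subset_span (h1 s hs), h2, fun w hw => ?_⟩
  induction hw using Submodule.span_induction with
  | mem w hw => exact h3 w hw
  | zero => simp
  | add a b _ _ ha hb =>
    intro x
    simp only [Pi.add_apply, add_mul, Finset.sum_add_distrib]
    rw [← ha, ← hb]
  | smul c a _ ha =>
    intro x
    simp only [Pi.smul_apply, smul_eq_mul, mul_assoc, ← Finset.mul_sum]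
    rw [← ha]

theorem red (h : Ech U S u) (p : Pl ℂ K ℂ E) (hu : ∀ s ∈ S, ∀ x, u s x ∈ p.V.1) :
    Ech (redS p U) S fun s x => p.r (u s x) := by
  refine of_span (fun s hs => ⟨u s, h.mem s hs, hu s hs, rfl⟩) (fun s hs t ht => ?_) ?_
  · rw [h.piv s hs t ht]
    split_ifs <;> simp
  · rintro _ ⟨w, hw, hi, rfl⟩ x
    have h1 : ∀ S' ⊆ S, (∑ s ∈ S', w s * u s x) ∈ p.V.1 ∧
        p.r (∑ s ∈ S', w s * u s x) = ∑ s ∈ S', p.r (w s) * p.r (u s x) := by
      intro S' hS'
      classical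
      induction S' using Finset.induction_on with
      | empty => simp
      | insert a S' ha ih =>
        have h2 := ih ((Finset.subset_insert _ _).trans hS')
        have h3 := hu a (hS' (Finset.mem_insert_self _ _)) x
        rw [Finset.sum_insert ha, Finset.sum_insert ha, Pl.r_add (mul_mem (hi a) h3) h2.1, h2.2,
          Pl.r_mul (hi a) h3]
        exact ⟨add_mem (mul_mem (hi a) h3) h2.1, rfl⟩
    change p.r (w x) = _
    rw [h.exp w hw x, (h1 S le_rfl).2]

theorem map (h : Ech U S u) (α : K →ₐ[ℂ] E) : Ech (mapS α U) S fun s x => α (u s x) := by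
  refine of_span (fun s hs => ⟨u s, h.mem s hs, rfl⟩) (fun s hs t ht => ?_) ?_
  · rw [h.piv s hs t ht]
    split_ifs <;> simp
  · rintro _ ⟨w, hw, rfl⟩ x
    change α (w x) = _
    rw [h.exp w hw x, map_sum]
    simp only [map_mul]

end Ech

theorem exists_ech (V : RZ ℂ K) (U : Submodule K (P → K)) :
    ∃ (S : Finset P) (u : P → P → K), Ech U S u ∧ ∀ s ∈ S, ∀ x, u s x ∈ V.1 := by
  classical
  induction hn : Module.finrank K U using Nat.strong_induction_on generalizing U with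
  | _ n ih =>
  by_cases h0 : U = ⊥
  · refine ⟨∅, 0, ⟨by simp, by simp, fun w hw x => ?_⟩, by simp⟩
    rw [h0, Submodule.mem_bot] at hw
    simp [hw]
  obtain ⟨w0, hw0, hne⟩ := Submodule.exists_mem_ne_zero_of_ne_bot h0
  obtain ⟨x1, hx1⟩ := Function.ne_iff.1 hne
  obtain ⟨x0, -, hx0⟩ := Finset.exists_max_image Finset.univ (fun x => V.v (w0 x)) ⟨x1, by simp⟩
  have h1 : w0 x0 ≠ 0 := fun h => hx1 (by simpa [h] using hx0 x1 (by simp))
  let w : P → K := (w0 x0)⁻¹ • w0
  have hw : w ∈ U := U.smul_mem _ hw0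
  have hw1 : w x0 = 1 := inv_mul_cancel₀ h1
  have hwV : ∀ x, w x ∈ V.1 := fun x => by
    have := (RZ.le_iff h1).1 (hx0 x (by simp))
    rwa [div_eq_inv_mul] at this
  let U' : Submodule K (P → K) := U ⊓ LinearMap.ker (LinearMap.proj x0)
  have hlt : U' < U := lt_of_le_of_ne inf_le_left fun h => by
    have : w ∈ U' := h ▸ hw
    exact one_ne_zero (hw1.symm.trans this.2)
  obtain ⟨S, u, hE, hu⟩ := ih _ (hn ▸ Submodule.finrank_lt_finrank_of_lt hlt) U' rfl
  have hx0S : x0 ∉ S := fun h => by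
    have h2 : u x0 x0 = 0 := (hE.mem x0 h).2
    rw [hE.piv x0 h x0 h, if_pos rfl] at h2
    exact one_ne_zero h2
  have hu0 : ∀ s ∈ S, u s x0 = 0 := fun s hs => (hE.mem s hs).2
  let w' : P → K := fun x => w x - ∑ s ∈ S, w s * u s x
  have hw' : w' ∈ U := sub_mem hw (hE.sum_mem w).1
  have hw'0 : w' x0 = 1 := by
    simp only [w', hw1]
    rw [Finset.sum_eq_zero fun s hs => by rw [hu0 s hs, mul_zero], sub_zero]
  have hw'S : ∀ t ∈ S, w' t = 0 := fun t ht => by
    simp only [w']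
    rw [hE.sum_piv w ht, sub_self]
  refine ⟨insert x0 S, Function.update u x0 w', ⟨fun s hs => ?_, fun s hs t ht => ?_,
    fun a ha x => ?_⟩, fun s hs x => ?_⟩
  · rcases Finset.mem_insert.1 hs with rfl | hs
    · rwa [Function.update_self]
    · rw [Function.update_of_ne (ne_of_mem_of_not_mem hs hx0S)]
      exact (hE.mem s hs).1
  · replace hs := Finset.mem_insert.1 hs
    rcases hs with rfl | hs
    · rw [Function.update_self]
      rcases Finset.mem_insert.1 ht with rfl | ht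
      · rw [hw'0, if_pos rfl]
      · rw [hw'S t ht, if_neg (ne_of_mem_of_not_mem ht hx0S).symm]
    · rw [Function.update_of_ne (ne_of_mem_of_not_mem hs hx0S)]
      rcases Finset.mem_insert.1 ht with h4 | h4
      · rw [h4, hu0 s hs, if_neg (ne_of_mem_of_not_mem hs hx0S)]
      · exact hE.piv s hs t h4
  · have h2 : a - a x0 • w' ∈ U' := ⟨sub_mem ha (U.smul_mem _ hw'), by
      change a x0 - a x0 * w' x0 = 0
      rw [hw'0, mul_one, sub_self]⟩
    have h3 := hE.exp _ h2 x
    rw [Finset.sum_insert hx0S, Function.update_self, Finset.sum_congr rfl fun s hs => by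
      rw [Function.update_of_ne (ne_of_mem_of_not_mem hs hx0S)]]
    rw [Finset.sum_congr rfl fun s hs => by
      rw [show (a - a x0 • w') s = a s from by
        change a s - a x0 * w' s = _
        rw [hw'S s hs, mul_zero, sub_zero]]] at h3
    rw [← h3]
    change a x = _ + (a x - a x0 * w' x)
    ring
  · rcases Finset.mem_insert.1 hs with rfl | hs
    · rw [Function.update_self]
      exact sub_mem (hwV x) (sum_mem fun s hs => mul_mem (hwV s) (hu s hs x))
    · rw [Function.update_of_ne (ne_of_mem_of_not_mem hs hx0S)]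
      exact hu s hs x

variable {U U' : Submodule K (P → K)}

theorem finrank_redS (p : Pl ℂ K ℂ E) (U : Submodule K (P → K)) :
    Module.finrank E (redS p U) = Module.finrank K U := by
  obtain ⟨S, u, h, hu⟩ := exists_ech p.V U
  rw [(h.red p hu).finrank_eq, h.finrank_eq]

theorem finrank_mapS (α : K →ₐ[ℂ] E) (U : Submodule K (P → K)) :
    Module.finrank E (mapS α U) = Module.finrank K U := by
  obtain ⟨S, u, h, -⟩ := exists_ech (RZ.top ℂ K) U
  rw [(h.map α).finrank_eq, h.finrank_eq]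

theorem mem_redS (p : Pl ℂ K ℂ E) {u : P → K} (hu : u ∈ U) (hi : ∀ x, u x ∈ p.V.1) :
    (fun x => p.r (u x)) ∈ redS p U := Submodule.subset_span ⟨u, hu, hi, rfl⟩

theorem mem_mapS (α : K →ₐ[ℂ] E) {u : P → K} (hu : u ∈ U) : (fun x => α (u x)) ∈ mapS α U :=
  Submodule.subset_span ⟨u, hu, rfl⟩

theorem redS_mono (p : Pl ℂ K ℂ E) (h : U ≤ U') : redS p U ≤ redS p U' :=
  Submodule.span_mono fun _ ⟨u, h1, h2⟩ => ⟨u, h h1, h2⟩

theorem mapS_mono (α : K →ₐ[ℂ] E) (h : U ≤ U') : mapS α U ≤ mapS α U' :=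
  Submodule.span_mono fun _ ⟨u, h1, h2⟩ => ⟨u, h h1, h2⟩

theorem redS_le {W : Submodule E (P → E)} {p : Pl ℂ K ℂ E}
    (h : ∀ u ∈ U, (∀ x, u x ∈ p.V.1) → (fun x => p.r (u x)) ∈ W) : redS p U ≤ W :=
  Submodule.span_le.2 fun _ ⟨u, h1, h2, h3⟩ => h3 ▸ h u h1 h2

theorem mapS_le {W : Submodule E (P → E)} {α : K →ₐ[ℂ] E}
    (h : ∀ u ∈ U, (fun x => α (u x)) ∈ W) : mapS α U ≤ W :=
  Submodule.span_le.2 fun _ ⟨u, h1, h3⟩ => h3 ▸ h u h1

/-- for a surjective place every element of the reduction is a reduction -/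
theorem exists_of_mem_redS {p : Pl ℂ K ℂ E} (hs : Function.Surjective p.φ) {w : P → E}
    (hw : w ∈ redS p U) : ∃ u ∈ U, (∀ x, u x ∈ p.V.1) ∧ w = fun x => p.r (u x) := by
  induction hw using Submodule.span_induction with
  | mem w hw => exact hw
  | zero => exact ⟨0, zero_mem _, fun _ => zero_mem _, by funext x; simp⟩
  | add a b _ _ ha hb =>
    obtain ⟨u, h1, h2, rfl⟩ := ha
    obtain ⟨u', h3, h4, rfl⟩ := hb
    exact ⟨u + u', add_mem h1 h3, fun x => add_mem (h2 x) (h4 x),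
      funext fun x => (Pl.r_add (h2 x) (h4 x)).symm⟩
  | smul c a _ ha =>
    obtain ⟨u, h1, h2, rfl⟩ := ha
    obtain ⟨c', rfl⟩ := hs c
    refine ⟨(c' : K) • u, U.smul_mem _ h1, fun x => mul_mem c'.2 (h2 x), funext fun x => ?_⟩
    change _ = p.r (c' * u x)
    rw [Pl.r_mul c'.2 (h2 x), Pl.r_coe]
    rfl

theorem r_hom (α : K →ₐ[ℂ] E) (x : K) : (LP.hom α).r x = α x := Pl.r_ofHom _ _ x

theorem mem_hom (α : K →ₐ[ℂ] E) (x : K) : x ∈ (LP.hom α).V.1 := trivial

theorem mem_comp {p : LP K E} {q : LP E L} {x : K} :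
    x ∈ (p.comp q).V.1 ↔ x ∈ p.V.1 ∧ p.r x ∈ q.V.1 := Iff.rfl

theorem r_comp (p : LP K E) (q : LP E L) {x : K} (hx : x ∈ p.V.1) :
    (p.comp q).r x = q.r (p.r x) := by
  by_cases h : p.r x ∈ q.V.1
  · exact Pl.r_eq _ (mem_comp.2 ⟨hx, h⟩)
  · rw [Pl.r, Pl.r, dif_neg h, dif_neg fun h1 => h (mem_comp.1 h1).2]

theorem redS_hom (α : K →ₐ[ℂ] E) (U : Submodule K (P → K)) :
    redS (LP.hom α).toPl U = mapS α U := by
  unfold redS mapS
  congr 1
  ext w
  simp only [r_hom, mem_hom, implies_true, true_and, Set.mem_ofPred_eq]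

theorem redS_comp (p : LP K E) (q : LP E L) (U : Submodule K (P → K)) :
    redS (p.comp q).toPl U = redS q.toPl (redS p.toPl U) := by
  obtain ⟨S, u, h, hu⟩ := exists_ech (p.comp q).V U
  have h1 := h.red (p.comp q).toPl hu
  have h2 := (h.red p.toPl fun s hs x => (mem_comp.1 (hu s hs x)).1).red q.toPl
    fun s hs x => (mem_comp.1 (hu s hs x)).2
  refine Ech.unique ⟨fun s hs => ?_, h2.piv, fun w hw x => ?_⟩ h2
  · have := h1.mem s hs
    rwa [show (fun x => (p.comp q).r (u s x)) = fun x => q.r (p.r (u s x)) from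
      funext fun x => r_comp p q (mem_comp.1 (hu s hs x)).1] at this
  · rw [h1.exp w hw x]
    exact Finset.sum_congr rfl fun s hs => by rw [r_comp p q (mem_comp.1 (hu s hs x)).1]

theorem mapS_mapS (α : K →ₐ[ℂ] E) (β : E →ₐ[ℂ] L) (U : Submodule K (P → K)) :
    mapS β (mapS α U) = mapS (β.comp α) U := by
  obtain ⟨S, u, h, -⟩ := exists_ech (RZ.top ℂ K) U
  exact ((h.map α).map β).unique (h.map (β.comp α))

theorem mapS_id (U : Submodule K (P → K)) : mapS (AlgHom.id ℂ K) U = U := by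
  obtain ⟨S, u, h, -⟩ := exists_ech (RZ.top ℂ K) U
  exact (h.map _).unique h

theorem map_mem_mapS_iff (α : K →ₐ[ℂ] E) {w : P → K} : (fun x => α (w x)) ∈ mapS α U ↔ w ∈ U := by
  obtain ⟨S, u, h, -⟩ := exists_ech (RZ.top ℂ K) U
  rw [(h.map α).mem_iff, h.mem_iff]
  refine forall_congr' fun x => ?_
  rw [← (α : K →+* E).injective.eq_iff, map_sum]
  simp only [map_mul, RingHom.coe_coe]

/-- membership in an extension of scalars is tested by semilinear functionals -/
theorem mem_mapS_iff (α : K →ₐ[ℂ] E) {w : P → E} : w ∈ mapS α U ↔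
    ∀ φ : E →+ K, (∀ c x, φ (α c * x) = c * φ x) → (fun x => φ (w x)) ∈ U := by
  obtain ⟨S, u, h, -⟩ := exists_ech (RZ.top ℂ K) U
  rw [(h.map α).mem_iff]
  refine ⟨fun hw φ hφ => h.mem_iff.2 fun x => ?_, fun hw x => ?_⟩
  · rw [hw x, map_sum]
    exact Finset.sum_congr rfl fun s _ => by rw [mul_comm, hφ, mul_comm]
  · let _ : Algebra K E := (α : K →+* E).toAlgebra
    rw [← sub_eq_zero, ← Module.forall_dual_apply_eq_zero_iff K]
    intro φ
    have hφ : ∀ c x, φ (α c * x) = c * φ x := fun c x => φ.map_smul c x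
    have h1 := h.exp _ (hw φ.toAddMonoidHom hφ) x
    rw [map_sub, map_sum, sub_eq_zero]
    refine h1.trans (Finset.sum_congr rfl fun s _ => ?_)
    rw [mul_comm (w s), hφ, mul_comm]
    rfl

theorem mapS_inf (α : K →ₐ[ℂ] E) (U U' : Submodule K (P → K)) :
    mapS α (U ⊓ U') = mapS α U ⊓ mapS α U' := by
  ext w
  simp only [Submodule.mem_inf, mem_mapS_iff, imp_and, forall_and]

theorem mapS_iInf (α : K →ₐ[ℂ] E) {ι : Type} (U : ι → Submodule K (P → K)) :
    mapS α (⨅ i, U i) = ⨅ i, mapS α (U i) := by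
  ext w
  simp only [Submodule.mem_iInf, mem_mapS_iff]
  exact ⟨fun h i φ hφ => h φ hφ i, fun h φ hφ i => h i φ hφ⟩

theorem mapS_comap (α : K →ₐ[ℂ] E) {P' : Type} [Fintype P'] (g : P → P')
    (U : Submodule K (P → K)) : mapS α (U.comap (LinearMap.funLeft K K g)) =
      (mapS α U).comap (LinearMap.funLeft E E g) := by
  ext w
  simp only [Submodule.mem_comap, mem_mapS_iff]
  rfl

theorem mapS_map (α : K →ₐ[ℂ] E) {P' : Type} [Fintype P'] (g : P' → P)
    (U : Submodule K (P → K)) : mapS α (U.map (LinearMap.funLeft K K g)) =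
      (mapS α U).map (LinearMap.funLeft E E g) := by
  refine le_antisymm (mapS_le ?_) ?_
  · rintro _ ⟨u, hu, rfl⟩
    exact ⟨_, mem_mapS α hu, rfl⟩
  · rw [Submodule.map_le_iff_le_comap]
    exact mapS_le fun u hu => mem_mapS α (Submodule.mem_map_of_mem hu)

/-! ### scaling -/

theorem mem_sclS {c w : P → K} : w ∈ sclS c U ↔ ∃ u ∈ U, (fun x => c x * u x) = w := Iff.rfl

theorem scl_mem {c u : P → K} (hu : u ∈ U) : (fun x => c x * u x) ∈ sclS c U := ⟨u, hu, rfl⟩

theorem mem_sclS' {c w : P → K} (hc : ∀ x, c x ≠ 0) :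
    w ∈ sclS c U ↔ (fun x => (c x)⁻¹ * w x) ∈ U := by
  refine ⟨?_, fun h => ⟨_, h, funext fun x => mul_inv_cancel_left₀ (hc x) _⟩⟩
  rintro ⟨u, hu, rfl⟩
  have : (fun x => (c x)⁻¹ * (c x * u x)) = u := funext fun x => inv_mul_cancel_left₀ (hc x) _
  exact this.symm ▸ hu

theorem sclS_sclS (c c' : P → K) (U : Submodule K (P → K)) :
    sclS c (sclS c' U) = sclS (fun x => c x * c' x) U := by
  ext w
  simp only [mem_sclS]
  constructor
  · rintro ⟨_, ⟨u, hu, rfl⟩, rfl⟩
    exact ⟨u, hu, funext fun x => mul_assoc _ _ _⟩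
  · rintro ⟨u, hu, rfl⟩
    exact ⟨_, ⟨u, hu, rfl⟩, funext fun x => (mul_assoc _ _ _).symm⟩

theorem sclS_one (U : Submodule K (P → K)) : sclS (fun _ => 1) U = U := by
  ext w
  rw [mem_sclS' fun _ => one_ne_zero]
  simp

theorem sclS_mono (c : P → K) (h : U ≤ U') : sclS c U ≤ sclS c U' := Submodule.map_mono h

theorem finrank_sclS {c : P → K} (hc : ∀ x, c x ≠ 0) (U : Submodule K (P → K)) :
    Module.finrank K (sclS c U) = Module.finrank K U :=
  (LinearEquiv.finrank_eq (Submodule.equivMapOfInjective _ (fun _ _ h =>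
    funext fun x => mul_left_cancel₀ (hc x) (congrFun h x)) U)).symm

theorem mapS_sclS (α : K →ₐ[ℂ] E) (c : P → K) (U : Submodule K (P → K)) :
    mapS α (sclS c U) = sclS (fun x => α (c x)) (mapS α U) := by
  refine le_antisymm (mapS_le ?_) ?_
  · rintro _ ⟨u, hu, rfl⟩
    exact ⟨_, mem_mapS α hu, funext fun x => (map_mul α _ _).symm⟩
  · rw [sclS, Submodule.map_le_iff_le_comap]
    refine mapS_le fun u hu => ?_
    have := mem_mapS α (scl_mem (c := c) hu)
    simp only [map_mul] at this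
    exact this

theorem redS_sclS (p : Pl ℂ K ℂ E) {c : P → K} (hc : ∀ x, p.V.v (c x) = 1)
    (U : Submodule K (P → K)) : redS p (sclS c U) = sclS (fun x => p.r (c x)) (redS p U) := by
  have h1 : ∀ x, c x ∈ p.V.1 := fun x => RZ.le_one_iff.1 (hc x).le
  refine le_antisymm (redS_le ?_) ?_
  · rintro _ ⟨u, hu, rfl⟩ hi
    have h2 : ∀ x, u x ∈ p.V.1 := fun x => by
      have := RZ.le_one_iff.2 (hi x)
      change p.V.v (c x * u x) ≤ 1 at this
      rw [map_mul, hc, one_mul] at this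
      exact RZ.le_one_iff.1 this
    exact ⟨_, mem_redS p hu h2, funext fun x => (Pl.r_mul (h1 x) (h2 x)).symm⟩
  · rw [sclS, Submodule.map_le_iff_le_comap]
    refine redS_le fun u hu hi => ?_
    have := mem_redS p (scl_mem (c := c) hu) fun x => mul_mem (h1 x) (hi x)
    simp only [Pl.r_mul (h1 _) (hi _)] at this
    exact this

end Crest.Agent.X262.Vb
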